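import Vale.Agent.P092.H464.P.BZoom

/-!
P092, Track 3, COUNT_2 for forms of Witt index 2 (helper464): weights, standard forms, frames.
Index type `Ix ω = (Fin 2 ⊕ Fin 2) ⊕ ω`: `inl (inl b)` = the contracted plane (weight 2),
`inl (inr b)` = its dual (weight 0), `inr w` = the anisotropic kernel (weight 1).
-/

set_option linter.all false

namespace Vale.Agent.P092.H464.QF

open Finset Matrix
open Vale.Agent.P092.H464.PW (mulVec_le)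
open Vale.Agent.P092.H589.K2 (Nrm)
open Vale.Agent.P092.H820 (wd)
open Vale.Agent.P092.H835.PlF (w3 Alt alt_wd)
open Vale.Agent.P092.H835.PlGr (w3_smul_left w3_add_left w3_wd_left w3_wd_right)

/-- indices -/
abbrev Ix (ω : Type) := (Fin 2 ⊕ Fin 2) ⊕ ω

section wt

variable {𝕜 : Type} [NormedField 𝕜] {ω : Type}

/-- weights -/
def wt : Ix ω → ℕ
  | .inl (.inl _) => 2
  | .inl (.inr _) => 0
  | .inr _ => 1

@[simp] lemma wt_p (b : Fin 2) : wt (.inl (.inl b) : Ix ω) = 2 := rfl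
@[simp] lemma wt_m (b : Fin 2) : wt (.inl (.inr b) : Ix ω) = 0 := rfl
@[simp] lemma wt_w (w : ω) : wt (.inr w : Ix ω) = 1 := rfl

lemma wt_le (i : Ix ω) : wt i ≤ 2 := by
  rcases i with (b | b) | w <;> simp

/-- the dilation -/
def Dt (t : 𝕜) (x : Ix ω → 𝕜) : Ix ω → 𝕜 := fun i => t ^ wt i * x i

@[simp] lemma Dt_apply (t : 𝕜) (x : Ix ω → 𝕜) (i : Ix ω) : Dt t x i = t ^ wt i * x i := rfl

lemma Dt_Dt (t s : 𝕜) (x : Ix ω → 𝕜) : Dt t (Dt s x) = Dt (t * s) x := by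
  funext i; simp only [Dt_apply, mul_pow]; ring

lemma Dt_smul (t c : 𝕜) (x : Ix ω → 𝕜) : Dt t (c • x) = c • Dt t x := by
  funext i; simp only [Dt_apply, Pi.smul_apply, smul_eq_mul]; ring

lemma Dt_add (t : 𝕜) (x y : Ix ω → 𝕜) : Dt t (x + y) = Dt t x + Dt t y := by
  funext i; simp only [Dt_apply, Pi.add_apply]; ring

/-- conjugation by the dilation -/
def kz (ρ : 𝕜) (n : Matrix (Ix ω) (Ix ω) 𝕜) : Matrix (Ix ω) (Ix ω) 𝕜 :=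
  Matrix.of fun i j => ρ ^ wt i * n i j * (ρ ^ wt j)⁻¹

lemma kz_mulVec [Fintype ω] {ρ : 𝕜} (hρ : ρ ≠ 0) (n : Matrix (Ix ω) (Ix ω) 𝕜) (x : Ix ω → 𝕜) :
    kz ρ n *ᵥ Dt ρ x = Dt ρ (n *ᵥ x) := by
  funext i
  simp only [Matrix.mulVec, dotProduct, kz, Matrix.of_apply, Dt_apply, mul_sum]
  refine sum_congr rfl fun j _ => ?_
  have : ρ ^ wt j ≠ 0 := pow_ne_zero _ hρ
  field_simp

lemma kz_le {ρ : 𝕜} (hρ : ρ ≠ 0) {n : Matrix (Ix ω) (Ix ω) 𝕜} {C : ℝ}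
    (h : ∀ i j, ‖ρ‖ ^ wt i * ‖n i j‖ ≤ C * ‖ρ‖ ^ wt j) (i j : Ix ω) : ‖kz ρ n i j‖ ≤ C := by
  have hp : 0 < ‖ρ‖ ^ wt j := pow_pos (norm_pos_iff.2 hρ) _
  rw [kz, Matrix.of_apply, norm_mul, norm_mul, norm_inv, norm_pow, norm_pow, ← div_eq_mul_inv,
    div_le_iff₀ hp]
  exact h i j

end wt

section form

variable {𝕜 : Type} [NontriviallyNormedField 𝕜] {ω : Type} [Fintype ω]

/-- bounds of the three parts of a vector -/
structure Bd (v : Ix ω → 𝕜) (a0 a1 a2 : ℝ) : Prop where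
  m : ∀ b, ‖v (.inl (.inr b))‖ ≤ a0
  w : ∀ w, ‖v (.inr w)‖ ≤ a1
  p : ∀ b, ‖v (.inl (.inl b))‖ ≤ a2

/-- the basis -/
def eb [DecidableEq ω] (i : Ix ω) : Ix ω → 𝕜 := Pi.single i 1

/-- standard forms of Witt index 2 -/
structure Sf [DecidableEq ω] (h : (Ix ω → 𝕜) → (Ix ω → 𝕜) → 𝕜) (C : ℝ) : Prop where
  one : 1 ≤ C
  add : ∀ x y z, h (x + y) z = h x z + h y z
  smul : ∀ (c : 𝕜) x z, h (c • x) z = c * h x z
  add' : ∀ x y z, h z (x + y) = h z x + h z y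
  smul' : ∀ (c : 𝕜) x z, ‖h z (c • x)‖ = ‖c‖ * ‖h z x‖
  sym : ∀ x y, ‖h y x‖ = ‖h x y‖
  le3 : ∀ {x y a0 a1 a2 b0 b1 b2}, 0 ≤ a1 → 0 ≤ b1 → Bd x a0 a1 a2 → Bd y b0 b1 b2 →
    ‖h x y‖ ≤ C * (a0 * b2 + a2 * b0 + a1 * b1)
  dual : ∀ x b, ‖h x (eb (.inl (.inl b)))‖ = ‖x (.inl (.inr b))‖
  an : ∀ {x a0 a2}, h x x = 0 → (∀ b, ‖x (.inl (.inr b))‖ ≤ a0) →
    (∀ b, ‖x (.inl (.inl b))‖ ≤ a2) → ∀ w, ‖x (.inr w)‖ ^ 2 ≤ C * (a0 * a2)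

/-- bounded frames -/
structure Fr [DecidableEq ω] (h : (Ix ω → 𝕜) → (Ix ω → 𝕜) → 𝕜) (C : ℝ)
    (κ κ' : Matrix (Ix ω) (Ix ω) 𝕜) : Prop where
  l : κ' * κ = 1
  r : κ * κ' = 1
  le : ∀ i j, ‖κ i j‖ ≤ C
  le' : ∀ i j, ‖κ' i j‖ ≤ C
  iso : ∀ x y, h (κ *ᵥ x) (κ *ᵥ y) = h x y

/-- isotropic lines, by their normalised Pluecker vectors -/
structure Ln (h : (Ix ω → 𝕜) → (Ix ω → 𝕜) → 𝕜) (p : Ix ω × Ix ω → 𝕜) : Prop where
  nrm : Nrm p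
  alt : Alt p
  dec : ∃ z y, p = wd z y
  iso : ∀ x x', w3 x p = 0 → w3 x' p = 0 → h x x' = 0

/-- rows of a 2-vector -/
def row (p : Ix ω × Ix ω → 𝕜) (j : Ix ω) : Ix ω → 𝕜 := fun i => p (i, j)

/-- the number of coordinates -/
noncomputable def nn (ω : Type) [Fintype ω] : ℝ := Fintype.card (Ix ω)

lemma nn_one : 1 ≤ nn ω := by
  have : 0 < Fintype.card (Ix ω) := Fintype.card_pos
  rw [nn]; exact_mod_cast this

lemma Bd.of_norm (v : Ix ω → 𝕜) : Bd v ‖v‖ ‖v‖ ‖v‖ :=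
  ⟨fun _ => norm_le_pi_norm v _, fun _ => norm_le_pi_norm v _, fun _ => norm_le_pi_norm v _⟩

lemma Bd.mono {v : Ix ω → 𝕜} {a0 a1 a2 b0 b1 b2 : ℝ} (h : Bd v a0 a1 a2) (h0 : a0 ≤ b0)
    (h1 : a1 ≤ b1) (h2 : a2 ≤ b2) : Bd v b0 b1 b2 :=
  ⟨fun b => (h.m b).trans h0, fun w => (h.w w).trans h1, fun b => (h.p b).trans h2⟩

lemma Bd.norm_le {v : Ix ω → 𝕜} {a0 a1 a2 a : ℝ} (h : Bd v a0 a1 a2) (ha : 0 ≤ a) (h0 : a0 ≤ a)
    (h1 : a1 ≤ a) (h2 : a2 ≤ a) : ‖v‖ ≤ a := by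
  refine (pi_norm_le_iff_of_nonneg ha).2 fun i => ?_
  rcases i with (b | b) | w
  · exact (h.p b).trans h2
  · exact (h.m b).trans h0
  · exact (h.w w).trans h1

namespace Fr

variable [DecidableEq ω] {h : (Ix ω → 𝕜) → (Ix ω → 𝕜) → 𝕜} {C : ℝ}
  {κ κ' : Matrix (Ix ω) (Ix ω) 𝕜} (F : Fr h C κ κ')
include F

lemma swap : Fr h C κ' κ where
  l := F.r
  r := F.l
  le := F.le'
  le' := F.le
  iso x y := by
    rw [← F.iso, Matrix.mulVec_mulVec, Matrix.mulVec_mulVec, F.r, Matrix.one_mulVec,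
      Matrix.one_mulVec]

lemma mv (hC : 0 ≤ C) (x : Ix ω → 𝕜) : ‖κ *ᵥ x‖ ≤ nn ω * C * ‖x‖ := mulVec_le hC F.le x

lemma mv' (hC : 0 ≤ C) (x : Ix ω → 𝕜) : ‖κ' *ᵥ x‖ ≤ nn ω * C * ‖x‖ := F.swap.mv hC x

lemma kl (x : Ix ω → 𝕜) : κ' *ᵥ (κ *ᵥ x) = x := by
  rw [Matrix.mulVec_mulVec, F.l, Matrix.one_mulVec]

lemma kr (x : Ix ω → 𝕜) : κ *ᵥ (κ' *ᵥ x) = x := by
  rw [Matrix.mulVec_mulVec, F.r, Matrix.one_mulVec]

end Fr

namespace Sf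

variable [DecidableEq ω] {h : (Ix ω → 𝕜) → (Ix ω → 𝕜) → 𝕜} {C : ℝ} (H : Sf h C)
include H

lemma sub (x y z : Ix ω → 𝕜) : h (x - y) z = h x z - h y z := by
  have := H.add (x - y) y z
  rw [sub_add_cancel] at this
  rw [this]; ring

lemma sub' (x y z : Ix ω → 𝕜) : h z (x - y) = h z x - h z y := by
  have := H.add' (x - y) y z
  rw [sub_add_cancel] at this
  rw [this]; ring

lemma le (x y : Ix ω → 𝕜) : ‖h x y‖ ≤ 3 * C * (‖x‖ * ‖y‖) := by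
  refine (H.le3 (norm_nonneg _) (norm_nonneg _) (Bd.of_norm x) (Bd.of_norm y)).trans (le_of_eq ?_)
  ring

lemma le' {x y : Ix ω → 𝕜} {a b : ℝ} (hx : ‖x‖ ≤ a) (hy : ‖y‖ ≤ b) :
    ‖h x y‖ ≤ 3 * C * (a * b) := by
  have h0 := H.one
  have ha : 0 ≤ a := (norm_nonneg _).trans hx
  refine (H.le x y).trans ?_
  gcongr

end Sf

namespace Ln

variable [DecidableEq ω] {h : (Ix ω → 𝕜) → (Ix ω → 𝕜) → 𝕜} {p : Ix ω × Ix ω → 𝕜}
  (L : Ln h p)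
include L

lemma w3_row (j : Ix ω) : w3 (row p j) p = 0 := by
  obtain ⟨z, y, rfl⟩ := L.dec
  have e : row (wd z y) j = y j • z + (- z j) • y := by
    funext i
    simp only [row, wd, Pi.add_apply, Pi.smul_apply, smul_eq_mul]; ring
  rw [e, w3_add_left, w3_smul_left, w3_smul_left, w3_wd_left, w3_wd_right, smul_zero, smul_zero,
    add_zero]

lemma w3_add {x y : Ix ω → 𝕜} (hx : w3 x p = 0) (hy : w3 y p = 0) : w3 (x + y) p = 0 := by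
  rw [w3_add_left, hx, hy, add_zero]

lemma w3_smul (c : 𝕜) {x : Ix ω → 𝕜} (hx : w3 x p = 0) : w3 (c • x) p = 0 := by
  rw [w3_smul_left, hx, smul_zero]

lemma le1 (Q : Ix ω × Ix ω) : ‖p Q‖ ≤ 1 := (norm_le_pi_norm p Q).trans L.nrm.1

lemma row_le (j : Ix ω) : ‖row p j‖ ≤ 1 :=
  (pi_norm_le_iff_of_nonneg zero_le_one).2 fun i => L.le1 _

/-- every vector of the line is a combination of two rows -/
lemma comb {x : Ix ω → 𝕜} (hx : w3 x p = 0) :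
    ∃ a b : Ix ω, x = x a • row p b - x b • row p a := by
  obtain ⟨_, ⟨a, b⟩, hP⟩ := L.nrm
  refine ⟨a, b, ?_⟩
  funext i
  have := congrFun hx (i, (a, b))
  simp only [w3, Pi.zero_apply, hP] at this
  simp only [row, Pi.sub_apply, Pi.smul_apply, smul_eq_mul]
  linear_combination this

/-- a functional small on the rows is small on the line -/
lemma fn_le {κ : Matrix (Ix ω) (Ix ω) 𝕜} {i : Ix ω} {δ : ℝ}
    (hr : ∀ j, ‖(κ *ᵥ row p j) i‖ ≤ δ) {x : Ix ω → 𝕜} (hx : w3 x p = 0) :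
    ‖(κ *ᵥ x) i‖ ≤ 2 * ‖x‖ * δ := by
  obtain ⟨a, b, e⟩ := L.comb hx
  have hδ : 0 ≤ δ := (norm_nonneg _).trans (hr a)
  rw [e, Matrix.mulVec_sub, Matrix.mulVec_smul, Matrix.mulVec_smul, Pi.sub_apply, Pi.smul_apply,
    Pi.smul_apply, smul_eq_mul, smul_eq_mul]
  rw [← e]
  refine (norm_sub_le _ _).trans ?_
  rw [norm_mul, norm_mul]
  have h1 := mul_le_mul (norm_le_pi_norm x a) (hr b) (norm_nonneg _) (norm_nonneg _)
  have h2 := mul_le_mul (norm_le_pi_norm x b) (hr a) (norm_nonneg _) (norm_nonneg _)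
  linarith

end Ln

end form

end Vale.Agent.P092.H464.QF
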