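import Vale.Agent.P092.H464.Q.Geo
import Vale.Agent.P092.H464.P.Whit

/-!
P092, Track 3, COUNT_2 for forms of Witt index 2 (helper464): labels of lines whose cells are small
for the Carnot-Caratheodory distance, and the Whitney decomposition for them.
-/

set_option linter.all false

namespace Vale.Agent.P092.H464.QF

open Finset Matrix
open Vale.Agent.P092.H464 (Pv)
open Vale.Agent.P092.H464.PW (mulVec_le whit)
open Vale.Agent.P092.H589.K2 (Nrm Cells code code_count code_count_ball code_small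
  measurable_code)
open Vale.Agent.P092.H820 (wd)
open Vale.Agent.P092.H835.PlF (w3 Alt alt_wd)

section gram

variable {𝕜 : Type} [NontriviallyNormedField 𝕜] {ω : Type} [Fintype ω] [DecidableEq ω]
  {h : (Ix ω → 𝕜) → (Ix ω → 𝕜) → 𝕜} {C : ℝ} {κ κ' : Matrix (Ix ω) (Ix ω) 𝕜}
  {p p' p₀ : Ix ω × Ix ω → 𝕜}

/-- the Gram array of two lines -/
def Gm (h : (Ix ω → 𝕜) → (Ix ω → 𝕜) → 𝕜) (p p' : Ix ω × Ix ω → 𝕜) : Ix ω × Ix ω → 𝕜 :=
  fun Q => h (row p Q.1) (row p' Q.2)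

lemma row_sub (p p' : Ix ω × Ix ω → 𝕜) (j : Ix ω) : row (p - p') j = row p j - row p' j := rfl

lemma row_le_norm (p : Ix ω × Ix ω → 𝕜) (j : Ix ω) : ‖row p j‖ ≤ ‖p‖ :=
  (pi_norm_le_iff_of_nonneg (norm_nonneg _)).2 fun i => norm_le_pi_norm p (i, j)

lemma row_diff {μ : ℝ} (hd : ‖p - p'‖ ≤ μ) (j : Ix ω) : ‖row p j - row p' j‖ ≤ μ := by
  rw [← row_sub]; exact (row_le_norm _ _).trans hd

/-- the label of one level: closeness to a fixed line gives closeness -/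
lemma gm_small (H : Sf h C) (L' : Ln h p') {μ : ℝ} (hμ : 0 ≤ μ) (hd : ‖p - p'‖ ≤ μ)
    (hd' : ‖p' - p₀‖ ≤ μ) (hg : ‖Gm h p p₀ - Gm h p' p₀‖ ≤ μ ^ 2) (Q : Ix ω × Ix ω) :
    ‖Gm h p p' Q‖ ≤ (1 + 3 * C) * μ ^ 2 := by
  have e : Gm h p p' Q = (Gm h p p₀ Q - Gm h p' p₀ Q) +
      h (row p Q.1 - row p' Q.1) (row p' Q.2 - row p₀ Q.2) := by
    have h0 : h (row p' Q.1) (row p' Q.2) = 0 := L'.iso _ _ (L'.w3_row _) (L'.w3_row _)
    simp only [Gm]
    rw [H.sub', H.sub, H.sub, h0]; ring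
  rw [e]
  refine (norm_add_le _ _).trans ?_
  have h1 : ‖Gm h p p₀ Q - Gm h p' p₀ Q‖ ≤ μ ^ 2 :=
    (norm_le_pi_norm (Gm h p p₀ - Gm h p' p₀) Q).trans hg
  have h2 := H.le' (row_diff hd Q.1) (row_diff hd' Q.2)
  nlinarith

/-- two lines near the same frame have a small Gram array -/
lemma gm_near (H : Sf h C) (F : Fr h C κ κ') (L : Ln h p) (L' : Ln h p') {ε : ℝ} (hε : 0 ≤ ε)
    (hn : Nr κ p ε) (hn' : Nr κ p' ε) (Q : Ix ω × Ix ω) :
    ‖Gm h p p' Q‖ ≤ C * (4 * k0 ω C + k1 ω C ^ 2) * ε ^ 2 := by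
  have hC := H.one
  have h0 := k0_one (ω := ω) hC
  have h1 := k1_two (ω := ω) hC
  have b1 := (bd H F L hε hn (L.w3_row Q.1)).mono (b0 := 2 * ε ^ 2) (b1 := k1 ω C * ε)
    (b2 := k0 ω C) (mul_le_of_le_one_right (by positivity) (L.row_le _))
    (mul_le_of_le_one_right (by positivity) (L.row_le _))
    (mul_le_of_le_one_right (by positivity) (L.row_le _))
  have b2 := (bd H F L' hε hn' (L'.w3_row Q.2)).mono (b0 := 2 * ε ^ 2) (b1 := k1 ω C * ε)
    (b2 := k0 ω C) (mul_le_of_le_one_right (by positivity) (L'.row_le _))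
    (mul_le_of_le_one_right (by positivity) (L'.row_le _))
    (mul_le_of_le_one_right (by positivity) (L'.row_le _))
  simp only [Gm]
  rw [← F.iso]
  refine (H.le3 (by positivity) (by positivity) b1 b2).trans (le_of_eq ?_)
  ring

/-- constant of the labels -/
noncomputable def ks (ω : Type) [Fintype ω] (C : ℝ) : ℝ :=
  1 + k0 ω C * k2 ω C + 2 * k3 ω C * (1 + 3 * C) + 3 * C * k0 ω C * k1 ω C * k3 ω C

lemma ks_one (hC : 1 ≤ C) : 1 ≤ ks ω C := by
  have h0 := k0_one (ω := ω) hC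
  have h1 := k1_two (ω := ω) hC
  have h2 := k2_two (ω := ω) hC
  have h3 := k3_one (ω := ω) hC
  have : 0 ≤ k0 ω C * k2 ω C + 2 * k3 ω C * (1 + 3 * C) + 3 * C * k0 ω C * k1 ω C * k3 ω C := by
    positivity
  rw [ks]; linarith

/-- nearness passes to the lines of a cell -/
lemma nr_cell (H : Sf h C) (F : Fr h C κ κ') (L' : Ln h p') {μ : ℝ} (hμ : 0 ≤ μ)
    (hd : ‖p - p'‖ ≤ μ) (hg : ∀ Q, ‖Gm h p p' Q‖ ≤ (1 + 3 * C) * μ ^ 2)
    (hn : Nr κ p' (ks ω C * μ)) : Nr κ p (2 * ks ω C * μ) := by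
  have hC := H.one
  have hC0 : 0 ≤ C := by linarith
  have h0 := k0_one (ω := ω) hC
  have h1 := k1_two (ω := ω) hC
  have h2 := k2_two (ω := ω) hC
  have h3 := k3_one (ω := ω) hC
  have hs := ks_one (ω := ω) hC
  have hs1 : k0 ω C * k2 ω C ≤ ks ω C := by
    have : 0 ≤ 2 * k3 ω C * (1 + 3 * C) + 3 * C * k0 ω C * k1 ω C * k3 ω C := by positivity
    rw [ks]; linarith
  have hs2 : 2 * k3 ω C * (1 + 3 * C) + 3 * C * k0 ω C * k1 ω C * k3 ω C ≤ ks ω C := by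
    have : 0 ≤ k0 ω C * k2 ω C := by positivity
    rw [ks]; linarith
  set s := ks ω C with hsd
  intro b j
  have e0 : (κ *ᵥ row p j) (.inl (.inr b)) = (κ *ᵥ row p' j) (.inl (.inr b)) +
      (κ *ᵥ (row p j - row p' j)) (.inl (.inr b)) := by
    rw [Matrix.mulVec_sub, Pi.sub_apply]; ring
  have hΔ : ‖row p j - row p' j‖ ≤ μ := row_diff hd j
  have hκΔ : ‖κ *ᵥ (row p j - row p' j)‖ ≤ k0 ω C * μ := by
    refine (F.mv hC0 _).trans ?_
    rw [k0]
    have := nn_one (ω := ω)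
    gcongr
  have main : ‖(κ *ᵥ (row p j - row p' j)) (.inl (.inr b))‖ ≤ 3 * (s * μ) ^ 2 := by
    by_cases hsm : k2 ω C * (s * μ) ≤ 1
    · obtain ⟨x, hx⟩ := graph H F L' (by positivity) hsm hn
      obtain ⟨hx1, hx2, hx3⟩ := hx b
      have hε1 : s * μ ≤ 1 := by
        have : 0 ≤ s * μ := by positivity
        nlinarith
      have hd' := graph_bd H F L' (by positivity) hn hx1 hx2 hx3
      set d := κ *ᵥ x b - eb (.inl (.inl b)) with hdd
      have hdn : ‖d‖ ≤ k1 ω C * (s * μ) * k3 ω C := by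
        refine hd'.norm_le (by positivity) ?_ le_rfl (by positivity)
        have : 2 * (s * μ) ^ 2 ≤ k1 ω C * (s * μ) := by
          have : 0 ≤ s * μ := by positivity
          nlinarith
        gcongr
      have e1 : (eb (.inl (.inl b)) : Ix ω → 𝕜) = κ *ᵥ x b - d := by rw [hdd]; abel
      rw [← H.dual, e1, H.sub', F.iso]
      refine (norm_sub_le _ _).trans ?_
      have g1 : ‖h (row p j - row p' j) (x b)‖ ≤ 2 * k3 ω C * ((1 + 3 * C) * μ ^ 2) := by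
        obtain ⟨a, a', ea⟩ := L'.comb hx1
        have hrow : ∀ j', ‖h (row p j - row p' j) (row p' j')‖ ≤ (1 + 3 * C) * μ ^ 2 := by
          intro j'
          rw [H.sub, L'.iso _ _ (L'.w3_row j) (L'.w3_row j'), sub_zero]
          exact hg (j, j')
        rw [ea, H.sub']
        refine (norm_sub_le _ _).trans ?_
        rw [H.smul', H.smul']
        have q1 : ‖x b a‖ ≤ k3 ω C := (norm_le_pi_norm _ _).trans hx2
        have q2 : ‖x b a'‖ ≤ k3 ω C := (norm_le_pi_norm _ _).trans hx2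
        have r1 := mul_le_mul q1 (hrow a') (norm_nonneg _) (by positivity)
        have r2 := mul_le_mul q2 (hrow a) (norm_nonneg _) (by positivity)
        linarith
      have g2 := H.le' hκΔ hdn
      have hsμ : 0 ≤ μ ^ 2 := sq_nonneg _
      have key : 2 * k3 ω C * ((1 + 3 * C) * μ ^ 2) +
          3 * C * (k0 ω C * μ * (k1 ω C * (s * μ) * k3 ω C)) ≤ s * s * μ ^ 2 := by
        have e3 : 3 * C * (k0 ω C * μ * (k1 ω C * (s * μ) * k3 ω C)) =
          (3 * C * k0 ω C * k1 ω C * k3 ω C) * s * μ ^ 2 := by ring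
        have e4 : 2 * k3 ω C * ((1 + 3 * C) * μ ^ 2) ≤ (2 * k3 ω C * (1 + 3 * C)) * s * μ ^ 2 := by
          have : 0 ≤ 2 * k3 ω C * (1 + 3 * C) * μ ^ 2 := by positivity
          nlinarith
        rw [e3]
        calc _ ≤ (2 * k3 ω C * (1 + 3 * C)) * s * μ ^ 2 +
              (3 * C * k0 ω C * k1 ω C * k3 ω C) * s * μ ^ 2 := by linarith
          _ = (2 * k3 ω C * (1 + 3 * C) + 3 * C * k0 ω C * k1 ω C * k3 ω C) * s * μ ^ 2 := by ring
          _ ≤ s * s * μ ^ 2 := by gcongr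
      have : 0 ≤ (s * μ) ^ 2 := sq_nonneg _
      nlinarith
    · push Not at hsm
      refine (norm_le_pi_norm _ _).trans (hκΔ.trans ?_)
      have h5 : k0 ω C ≤ s * (s * μ) := by
        have h6 : 0 ≤ s * μ := by positivity
        have h7 : k0 ω C * 1 ≤ k0 ω C * (k2 ω C * (s * μ)) := by gcongr
        calc k0 ω C = k0 ω C * 1 := (mul_one _).symm
          _ ≤ k0 ω C * (k2 ω C * (s * μ)) := h7
          _ = (k0 ω C * k2 ω C) * (s * μ) := by ring
          _ ≤ s * (s * μ) := by gcongr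
      have h6 : k0 ω C * μ ≤ (s * μ) ^ 2 := by
        calc k0 ω C * μ ≤ s * (s * μ) * μ := by gcongr
          _ = _ := by ring
      have : 0 ≤ (s * μ) ^ 2 := sq_nonneg _
      linarith
  rw [e0]
  refine (norm_add_le _ _).trans ?_
  have := hn b j
  calc _ ≤ (s * μ) ^ 2 + 3 * (s * μ) ^ 2 := add_le_add this main
    _ = _ := by ring

/-- the Pluecker vector of the contracted plane -/
def et (κ' : Matrix (Ix ω) (Ix ω) 𝕜) : Ix ω × Ix ω → 𝕜 := fun Q =>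
  κ' Q.1 (.inl (.inl 0)) * κ' Q.2 (.inl (.inl 1)) - κ' Q.1 (.inl (.inl 1)) * κ' Q.2 (.inl (.inl 0))

/-- the leading term -/
def q0 (π : 𝕜) : Ix ω → Ix ω → 𝕜
  | .inl (.inl b), .inl (.inl b') => if b = 0 then (if b' = 1 then π else 0) else
      (if b' = 0 then - π else 0)
  | _, _ => 0

lemma sum_q0 (π : 𝕜) (u v : Ix ω → 𝕜) : ∑ l, v l * ∑ l', u l' * q0 π l' l =
    π * (u (.inl (.inl 0)) * v (.inl (.inl 1)) - u (.inl (.inl 1)) * v (.inl (.inl 0))) := by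
  simp only [Fintype.sum_sum_type, Fin.sum_univ_two, q0]
  simp
  ring

/-- constant -/
noncomputable def k6 (ω : Type) [Fintype ω] (C : ℝ) : ℝ := k0 ω C ^ 2 * (k0 ω C * k1 ω C)

/-- lines near the plane -/
lemma pl_near (H : Sf h C) (F : Fr h C κ κ') (L : Ln h p) {ε : ℝ} (hε : 0 ≤ ε) (hε1 : ε ≤ 1)
    (hn : Nr κ p ε) : ∃ π : 𝕜, ‖π‖ ≤ k0 ω C ^ 2 ∧
    ∀ Q, ‖p Q - π * et κ' Q‖ ≤ k6 ω C * ε := by
  have hC := H.one
  have hC0 : 0 ≤ C := by linarith
  have h0 := k0_one (ω := ω) hC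
  have h1 := k1_two (ω := ω) hC
  set q : Ix ω → Ix ω → 𝕜 := fun i j => (κ *ᵥ gr κ p j) i with hq
  set π := q (.inl (.inl 0)) (.inl (.inl 1)) with hπ
  have hgl := fun j => gr_le F hC0 L j
  have hbd : ∀ j, Bd (κ *ᵥ gr κ p j) (k0 ω C * (k1 ω C * ε)) (k0 ω C * (k1 ω C * ε))
      (k0 ω C * k0 ω C) := by
    intro j
    refine (bd H F L hε hn (gr_w3 L j)).mono ?_ ?_ ?_
    · calc 2 * ε ^ 2 * ‖gr κ p j‖ ≤ (k1 ω C * ε) * k0 ω C := by
            refine mul_le_mul ?_ (hgl j) (norm_nonneg _) (by positivity)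
            nlinarith
        _ = _ := by ring
    · calc k1 ω C * ε * ‖gr κ p j‖ ≤ (k1 ω C * ε) * k0 ω C := by gcongr; exact hgl j
        _ = _ := by ring
    · gcongr; exact hgl j
  set m := k0 ω C * (k1 ω C * ε) with hm
  have hm0 : 0 ≤ m := by positivity
  have hd : ∀ i, q i i = 0 := fun i => gr_diag L i
  have ha : ∀ i j, q i j = - q j i := fun i j => gr_anti L i j
  have hqle : ∀ i j, ‖q i j - q0 π i j‖ ≤ m := by
    intro i j
    rcases i with (b | b) | w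
    · rcases j with (b' | b') | w'
      · fin_cases b <;> fin_cases b'
        · simp [q0, hd]; exact hm0
        · simp [q0, hπ]; exact hm0
        · have := ha (.inl (.inl 1)) (.inl (.inl 0))
          simp [q0, this, hπ]; exact hm0
        · simp [q0, hd]; exact hm0
      · have e : q (.inl (.inl b)) (.inl (.inr b')) = - q (.inl (.inr b')) (.inl (.inl b)) :=
          ha _ _
        simp only [q0, sub_zero]
        rw [e, norm_neg]
        exact (hbd _).m b'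
      · have e : q (.inl (.inl b)) (.inr w') = - q (.inr w') (.inl (.inl b)) := ha _ _
        simp only [q0, sub_zero]
        rw [e, norm_neg]
        exact (hbd _).w w'
    · have e : q0 π (.inl (.inr b) : Ix ω) j = 0 := by
        rcases j with (b' | b') | w' <;> rfl
      rw [e, sub_zero]
      exact (hbd _).m b
    · have e : q0 π (.inr w : Ix ω) j = 0 := by
        rcases j with (b' | b') | w' <;> rfl
      rw [e, sub_zero]
      exact (hbd _).w w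
  refine ⟨π, ?_, fun Q => ?_⟩
  · calc ‖π‖ ≤ k0 ω C * k0 ω C := (hbd _).p 0
      _ = _ := by ring
  · have e1 : p Q = ∑ l, κ' Q.2 l * ∑ l', κ' Q.1 l' * q l' l := by
      rw [show p Q = p (Q.1, Q.2) from rfl, gr_back F p Q.1 Q.2]
      refine sum_congr rfl fun l _ => ?_
      have := congrFun (F.kl (gr κ p l)) Q.1
      rw [← this]
      rfl
    have e2 : π * et κ' Q = ∑ l, κ' Q.2 l * ∑ l', κ' Q.1 l' * q0 π l' l := by
      rw [sum_q0]; rfl
    have e3 : p Q - π * et κ' Q = ∑ l, κ' Q.2 l * ∑ l', κ' Q.1 l' * (q l' l - q0 π l' l) := by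
      rw [e1, e2, ← sum_sub_distrib]
      refine sum_congr rfl fun l _ => ?_
      rw [← mul_sub, ← sum_sub_distrib]
      congr 1
      exact sum_congr rfl fun l' _ => by ring
    rw [e3]
    refine (norm_sum_le _ _).trans ?_
    calc ∑ l, ‖κ' Q.2 l * ∑ l', κ' Q.1 l' * (q l' l - q0 π l' l)‖
        ≤ ∑ _l : Ix ω, C * (nn ω * (C * m)) := by
          refine sum_le_sum fun l _ => ?_
          rw [norm_mul]
          refine mul_le_mul (F.le' _ _) ?_ (norm_nonneg _) hC0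
          refine (norm_sum_le _ _).trans ?_
          calc ∑ l', ‖κ' Q.1 l' * (q l' l - q0 π l' l)‖ ≤ ∑ _l' : Ix ω, C * m := by
                refine sum_le_sum fun l' _ => ?_
                rw [norm_mul]
                exact mul_le_mul (F.le' _ _) (hqle _ _) (norm_nonneg _) hC0
            _ = _ := by rw [sum_const, card_univ, nsmul_eq_mul, nn]
      _ = _ := by rw [sum_const, card_univ, nsmul_eq_mul, k6, hm]; rw [k0, nn]; ring

lemma et_le (F : Fr h C κ κ') (hC : 0 ≤ C) (Q : Ix ω × Ix ω) : ‖et κ' Q‖ ≤ 2 * C ^ 2 := by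
  rw [et]
  refine (norm_sub_le _ _).trans ?_
  rw [norm_mul, norm_mul]
  have h1 := mul_le_mul (F.le' Q.1 (.inl (.inl 0))) (F.le' Q.2 (.inl (.inl 1))) (norm_nonneg _) hC
  have h2 := mul_le_mul (F.le' Q.1 (.inl (.inl 1))) (F.le' Q.2 (.inl (.inl 0))) (norm_nonneg _) hC
  linarith

/-- constant -/
noncomputable def k7 (ω : Type) [Fintype ω] (C : ℝ) : ℝ :=
  8 * k0 ω C ^ 2 * C ^ 2 * k6 ω C + 2 * k6 ω C ^ 2 + 2

lemma k6_one (hC : 1 ≤ C) : 1 ≤ k6 ω C := by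
  have h0 := k0_one (ω := ω) hC
  have h1 := k1_two (ω := ω) hC
  have h2 : 1 ≤ k0 ω C ^ 2 := one_le_pow₀ h0
  have h3 : 1 ≤ k0 ω C * k1 ω C := by nlinarith
  rw [k6]; nlinarith

/-- minors of two lines near the same frame -/
lemma pl_minor (H : Sf h C) (F : Fr h C κ κ') (L : Ln h p) (L' : Ln h p') {ε : ℝ} (hε : 0 ≤ ε)
    (hn : Nr κ p ε) (hn' : Nr κ p' ε) (a b : Ix ω × Ix ω) :
    ‖p' a * p b - p a * p' b‖ ≤ k7 ω C * ε := by
  have hC := H.one
  have hC0 : 0 ≤ C := by linarith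
  have h0 := k0_one (ω := ω) hC
  have h6 := k6_one (ω := ω) hC
  rcases le_or_gt ε 1 with hε1 | hε1
  · obtain ⟨π, hπ1, hπ2⟩ := pl_near H F L hε hε1 hn
    obtain ⟨π', hπ1', hπ2'⟩ := pl_near H F L' hε hε1 hn'
    set E : Ix ω × Ix ω → 𝕜 := fun Q => p Q - π * et κ' Q with hE
    set E' : Ix ω × Ix ω → 𝕜 := fun Q => p' Q - π' * et κ' Q with hE'
    have e : p' a * p b - p a * p' b = π' * et κ' a * E b - π' * et κ' b * E a +
        π * et κ' b * E' a - π * et κ' a * E' b + (E' a * E b - E a * E' b) := by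
      simp only [hE, hE']; ring
    have hη := et_le F hC0
    have t1 : ∀ (π : 𝕜), ‖π‖ ≤ k0 ω C ^ 2 → ∀ (E : Ix ω × Ix ω → 𝕜),
        (∀ Q, ‖E Q‖ ≤ k6 ω C * ε) → ∀ Q Q', ‖π * et κ' Q * E Q'‖ ≤
          2 * k0 ω C ^ 2 * C ^ 2 * k6 ω C * ε := by
      intro π hπ E hE Q Q'
      rw [norm_mul, norm_mul]
      calc ‖π‖ * ‖et κ' Q‖ * ‖E Q'‖ ≤ k0 ω C ^ 2 * (2 * C ^ 2) * (k6 ω C * ε) := by
            gcongr
            · exact hη Q
            · exact hE Q'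
        _ = _ := by ring
    have t2 : ∀ Q Q', ‖E Q * E' Q'‖ ≤ k6 ω C ^ 2 * ε := by
      intro Q Q'
      rw [norm_mul]
      calc ‖E Q‖ * ‖E' Q'‖ ≤ (k6 ω C * ε) * (k6 ω C * ε) := by
            gcongr
            · exact hπ2 Q
            · exact hπ2' Q'
        _ = k6 ω C ^ 2 * (ε * ε) := by ring
        _ ≤ k6 ω C ^ 2 * (ε * 1) := by gcongr
        _ = _ := by ring
    have t3 : ∀ Q Q', ‖E' Q * E Q'‖ ≤ k6 ω C ^ 2 * ε := by
      intro Q Q'; rw [mul_comm]; exact t2 Q' Q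
    rw [e]
    refine (norm_add_le _ _).trans ?_
    have a1 := t1 π' hπ1' E hπ2 a b
    have a2 := t1 π' hπ1' E hπ2 b a
    have a3 := t1 π hπ1 E' hπ2' b a
    have a4 := t1 π hπ1 E' hπ2' a b
    have b1 : ‖π' * et κ' a * E b - π' * et κ' b * E a + π * et κ' b * E' a -
        π * et κ' a * E' b‖ ≤ 4 * (2 * k0 ω C ^ 2 * C ^ 2 * k6 ω C * ε) := by
      refine (norm_sub_le _ _).trans ?_
      have := (norm_add_le (π' * et κ' a * E b - π' * et κ' b * E a) (π * et κ' b * E' a)).trans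
        (add_le_add_left (norm_sub_le _ _) _)
      linarith
    have b2 : ‖E' a * E b - E a * E' b‖ ≤ 2 * (k6 ω C ^ 2 * ε) := by
      refine (norm_sub_le _ _).trans ?_
      linarith [t3 a b, t2 a b]
    rw [k7]
    have : 0 ≤ 2 * ε := by positivity
    nlinarith
  · have c1 : ‖p' a * p b - p a * p' b‖ ≤ 2 := by
      refine (norm_sub_le _ _).trans ?_
      rw [norm_mul, norm_mul]
      have d1 := mul_le_mul (L'.le1 a) (L.le1 b) (norm_nonneg _) zero_le_one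
      have d2 := mul_le_mul (L.le1 a) (L'.le1 b) (norm_nonneg _) zero_le_one
      linarith
    have c2 : 2 ≤ k7 ω C := by
      have : 0 ≤ 8 * k0 ω C ^ 2 * C ^ 2 * k6 ω C + 2 * k6 ω C ^ 2 := by positivity
      rw [k7]; linarith
    nlinarith

end gram

section lab

variable {𝕜 : Type} [NontriviallyNormedField 𝕜] [ProperSpace 𝕜] [MeasurableSpace 𝕜]
  [BorelSpace 𝕜] (cl : Cells 𝕜) {ω : Type} [Fintype ω] [DecidableEq ω]
  (h : (Ix ω → 𝕜) → (Ix ω → 𝕜) → 𝕜) {Y : Type} (p : Y → Ix ω × Ix ω → 𝕜)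

open Classical in
/-- a line of the cell -/
noncomputable def rp (m : ℕ) (c : Ix ω × Ix ω → cl.T) : Ix ω × Ix ω → 𝕜 :=
  if h : ∃ x, code cl m (p x) = c then p h.choose else 0

/-- the label -/
noncomputable def lb (m : ℕ) (x : Y) : (Ix ω × Ix ω → cl.T) × (Ix ω × Ix ω → cl.T) :=
  (code cl m (p x), code cl (2 * m) (Gm h (p x) (rp cl p m (code cl m (p x)))))

variable {cl h p}

lemma rp_spec (m : ℕ) (x : Y) : ∃ x', code cl m (p x') = code cl m (p x) ∧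
    rp cl p m (code cl m (p x)) = p x' := by
  have h : ∃ x', code cl m (p x') = code cl m (p x) := ⟨x, rfl⟩
  exact ⟨h.choose, h.choose_spec, by rw [rp, dif_pos h]⟩

lemma half_sq' (m : ℕ) : ((1 : ℝ) / 2) ^ (2 * m) = ((1 / 2) ^ m) ^ 2 := by
  rw [mul_comm, pow_mul]

variable {C : ℝ} (H : Sf h C)
include H

lemma Sf.cont (w : Ix ω → 𝕜) : Continuous fun x => h x w := by
  let f : (Ix ω → 𝕜) →ₗ[𝕜] 𝕜 :=
    { toFun := fun x => h x w
      map_add' := fun x y => H.add x y w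
      map_smul' := fun c x => H.smul c x w }
  exact f.continuous_of_finiteDimensional

lemma lb_small (hL : ∀ y, Ln h (p y)) {m : ℕ} {x x' : Y} (he : lb cl h p m x = lb cl h p m x') :
    ‖p x - p x'‖ ≤ (1 / 2) ^ m ∧
    ∀ Q, ‖Gm h (p x) (p x') Q‖ ≤ (1 + 3 * C) * ((1 / 2) ^ m) ^ 2 := by
  have e1 : code cl m (p x) = code cl m (p x') := congrArg Prod.fst he
  have e2 := congrArg Prod.snd he
  simp only [lb] at e2
  rw [e1] at e2
  obtain ⟨x₀, h1, h2⟩ := rp_spec (cl := cl) (p := p) m x'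
  rw [h2] at e2
  have k1 := code_small e1
  have k2 := code_small e2
  have k3 := code_small (h1.symm)
  rw [half_sq'] at k2
  exact ⟨k1, gm_small H (hL x') (by positivity) k1 k3 k2⟩

lemma lb_fin (hL : ∀ y, Ln h (p y)) (m : ℕ) :
    ∃ F : Finset ((Ix ω × Ix ω → cl.T) × (Ix ω × Ix ω → cl.T)), ∀ x, lb cl h p m x ∈ F := by
  classical
  obtain ⟨M, hM⟩ := code_count_ball (c := cl) (ι := Ix ω × Ix ω) (2 ^ m)
  obtain ⟨F₁, _, hF₁⟩ := hM m 0
  obtain ⟨M', hM'⟩ := code_count_ball (c := cl) (ι := Ix ω × Ix ω) (3 * C * 2 ^ (2 * m))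
  obtain ⟨F₂, _, hF₂⟩ := hM' (2 * m) 0
  have hC := H.one
  refine ⟨F₁ ×ˢ F₂, fun x => mem_product.2 ⟨hF₁ _ ?_, hF₂ _ ?_⟩⟩
  · rw [sub_zero, ← mul_pow]
    norm_num
    exact (hL x).nrm.1
  · obtain ⟨x₀, h1, h2⟩ := rp_spec (cl := cl) (p := p) m x
    rw [h2, sub_zero, mul_assoc, ← mul_pow]
    norm_num
    refine (pi_norm_le_iff_of_nonneg (by positivity)).2 fun Q => ?_
    have := H.le' ((hL x).row_le Q.1) ((hL x₀).row_le Q.2)
    simp only [Gm]
    linarith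

lemma lb_meas [MeasurableSpace Y] (hp : Measurable p) (m : ℕ)
    (t : (Ix ω × Ix ω → cl.T) × (Ix ω × Ix ω → cl.T)) :
    MeasurableSet {x | lb cl h p m x = t} := by
  have e : {x | lb cl h p m x = t} = {x | code cl m (p x) = t.1} ∩
      {x | code cl (2 * m) (Gm h (p x) (rp cl p m t.1)) = t.2} := by
    ext x
    constructor
    · intro hx
      have h1 : code cl m (p x) = t.1 := congrArg Prod.fst hx
      have h2 := congrArg Prod.snd hx
      simp only [lb] at h2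
      rw [h1] at h2
      exact ⟨h1, h2⟩
    · rintro ⟨h1, h2⟩
      refine Prod.ext h1 ?_
      simp only [lb]
      rw [(h1 : code cl m (p x) = t.1)]
      exact h2
  rw [e]
  refine (measurable_code hp m t.1).inter (measurable_code ?_ (2 * m) t.2)
  refine measurable_pi_iff.2 fun Q => ?_
  simp only [Gm]
  have h1 : Measurable fun x => row (p x) Q.1 :=
    measurable_pi_iff.2 fun i => (measurable_pi_iff.1 hp) (i, Q.1)
  exact (H.cont _).measurable.comp h1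

/-- number of labels near a frame -/
lemma lb_count (a : ℝ) (ha : 0 ≤ a) : ∃ M : ℕ, ∀ {Y : Type} (p : Y → Ix ω × Ix ω → 𝕜),
    (∀ y, Ln h (p y)) → ∀ (m : ℕ) (κ κ' : Matrix (Ix ω) (Ix ω) 𝕜), Fr h C κ κ' →
    ∃ F : Finset ((Ix ω × Ix ω → cl.T) × (Ix ω × Ix ω → cl.T)), F.card ≤ M ∧
      ∀ x : Y, Nr κ (p x) (a * (1 / 2) ^ m) → lb cl h p m x ∈ F := by
  classical
  have hC := H.one
  have h0 := k0_one (ω := ω) hC
  have h1 := k1_two (ω := ω) hC
  set R₂ : ℝ := C * (4 * k0 ω C + k1 ω C ^ 2) * a ^ 2 + 3 * C with hR₂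
  have hR₂0 : 0 ≤ R₂ := by positivity
  obtain ⟨M₁, hM₁⟩ := code_count (c := cl) (ι := Ix ω × Ix ω) (k7 ω C * a) 1
  obtain ⟨M₂, hM₂⟩ := code_count_ball (c := cl) (ι := Ix ω × Ix ω) R₂
  refine ⟨M₁ * M₂, fun {Y} p hL m κ κ' F => ?_⟩
  by_cases hne : ∃ x : Y, Nr κ (p x) (a * (1 / 2) ^ m)
  · obtain ⟨y₁, hy₁⟩ := hne
    obtain ⟨F₁, hc₁, hF₁⟩ := hM₁ m (p y₁) (hL y₁).nrm.1 (hL y₁).nrm.2
    have hex : ∀ c : Ix ω × Ix ω → cl.T, ∃ G : Finset (Ix ω × Ix ω → cl.T), G.card ≤ M₂ ∧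
        ∀ x : Y, code cl m (p x) = c → Nr κ (p x) (a * (1 / 2) ^ m) →
        code cl (2 * m) (Gm h (p x) (rp cl p m c)) ∈ G := by
      intro c
      by_cases hc : ∃ x : Y, code cl m (p x) = c ∧ Nr κ (p x) (a * (1 / 2) ^ m)
      · obtain ⟨x₁, g1, g2⟩ := hc
        obtain ⟨G, hG, hG'⟩ := hM₂ (2 * m) (Gm h (p x₁) (rp cl p m c))
        refine ⟨G, hG, fun x f1 f2 => hG' _ ?_⟩
        obtain ⟨x₀, l1, l2⟩ := rp_spec (cl := cl) (p := p) m x₁
        rw [g1] at l1 l2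
        have m1 : ‖p x - p x₁‖ ≤ (1 / 2) ^ m := code_small (f1.trans g1.symm)
        have m2 : ‖p x₀ - p x₁‖ ≤ (1 / 2) ^ m := code_small (l1.trans g1.symm)
        rw [l2, half_sq']
        refine (pi_norm_le_iff_of_nonneg (by positivity)).2 fun Q => ?_
        have m3 := gm_near H F (hL x) (hL x₁) (by positivity) f2 g2 Q
        have key : (Gm h (p x) (p x₀) - Gm h (p x₁) (p x₀)) Q = Gm h (p x) (p x₁) Q +
            h (row (p x) Q.1 - row (p x₁) Q.1) (row (p x₀) Q.2 - row (p x₁) Q.2) := by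
          have h0 : h (row (p x₁) Q.1) (row (p x₁) Q.2) = 0 :=
            (hL x₁).iso _ _ ((hL x₁).w3_row _) ((hL x₁).w3_row _)
          simp only [Gm, Pi.sub_apply]
          rw [H.sub', H.sub, H.sub, h0]; ring
        rw [key]
        have m4 := H.le' (row_diff m1 Q.1) (row_diff m2 Q.2)
        refine (norm_add_le _ _).trans ?_
        rw [hR₂]
        calc _ ≤ C * (4 * k0 ω C + k1 ω C ^ 2) * (a * (1 / 2) ^ m) ^ 2 +
              3 * C * ((1 / 2) ^ m * (1 / 2) ^ m) := add_le_add m3 m4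
          _ = _ := by ring
      · exact ⟨∅, by simp, fun x k1 k2 => absurd ⟨x, k1, k2⟩ hc⟩
    choose G hG1 hG2 using hex
    refine ⟨F₁.biUnion fun c => {c} ×ˢ G c, ?_, fun x k2 => ?_⟩
    · refine card_biUnion_le.trans ?_
      calc ∑ c ∈ F₁, (({c} : Finset (Ix ω × Ix ω → cl.T)) ×ˢ G c).card ≤ ∑ _c ∈ F₁, M₂ := by
            refine sum_le_sum fun c _ => ?_
            rw [card_product, card_singleton, one_mul]
            exact hG1 c
        _ = F₁.card * M₂ := by rw [sum_const, smul_eq_mul]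
        _ ≤ _ := Nat.mul_le_mul_right _ hc₁
    · rw [mem_biUnion]
      refine ⟨code cl m (p x), hF₁ _ (hL x).nrm (fun P Q => ?_), ?_⟩
      · refine (pl_minor H F (hL x) (hL y₁) (by positivity) k2 hy₁ P Q).trans (le_of_eq ?_)
        ring
      · rw [mem_product]
        exact ⟨mem_singleton_self _, hG2 _ x rfl k2⟩
  · exact ⟨∅, by simp, fun x k => absurd ⟨x, k⟩ hne⟩

end lab

section main

variable {K : Type} [NormedAddCommGroup K] [InnerProductSpace ℂ K] [CompleteSpace K]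
variable {𝕜 : Type} [NontriviallyNormedField 𝕜] [ProperSpace 𝕜] [MeasurableSpace 𝕜]
  [BorelSpace 𝕜] {ω : Type} [Fintype ω] [DecidableEq ω]

/-- **Whitney decomposition of the lines.** -/
theorem lwhit (cl : Cells 𝕜) {h : (Ix ω → 𝕜) → (Ix ω → 𝕜) → 𝕜} {C : ℝ} (H : Sf h C) :
    ∃ M : ℕ, ∀ {Y κ : Type} [MeasurableSpace Y] (p : Y → Ix ω × Ix ω → 𝕜), Measurable p →
    (∀ y, Ln h (p y)) → ∀ {Pz : Set Y → (K →L[ℂ] K)}, Pv Pz → ∀ (J : ℕ) (S : Finset κ)
    (n n' : κ → Matrix (Ix ω) (Ix ω) 𝕜), (∀ k ∈ S, Fr h C (n k) (n' k)) →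
    ∀ (T : κ → (K →L[ℂ] K)) (D : ℝ), 0 ≤ D →
    (∀ m < J, ∀ S' ⊆ S, S'.Nonempty → ∀ A : Set Y, MeasurableSet A → A.Nonempty →
      (∀ k ∈ S', ∀ y ∈ A, Nr (n k) (p y) (2 * ks ω C * (1 / 2) ^ m) ∧
        ¬ Nr (n k) (p y) (ks ω C * (1 / 2) ^ (m + 1))) →
      ∀ v, ∑ k ∈ S', ‖T k (Pz A v)‖ ^ 2 ≤ D ^ 2 * ‖Pz A v‖ ^ 2) →
    (∀ S' ⊆ S, S'.Nonempty → ∀ A : Set Y, MeasurableSet A → A.Nonempty →
      (∀ k ∈ S', ∀ y ∈ A, Nr (n k) (p y) (2 * ks ω C * (1 / 2) ^ J)) →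
      ∀ v, ∑ k ∈ S', ‖T k (Pz A v)‖ ^ 2 ≤ D ^ 2 * ‖Pz A v‖ ^ 2) →
    ∀ v, ∑ k ∈ S, ‖T k v‖ ^ 2 ≤ (M * (J + 1) * D) ^ 2 * ‖v‖ ^ 2 := by
  classical
  have hC := H.one
  have hC0 : 0 ≤ C := by linarith
  have hs := ks_one (ω := ω) hC
  have h0 := k0_one (ω := ω) hC
  obtain ⟨M₁, hM₁⟩ := lb_count (cl := cl) H (2 * ks ω C) (by linarith)
  obtain ⟨M₂, hM₂⟩ := lb_count (cl := cl) H (4 * ks ω C) (by linarith)
  refine ⟨max M₁ M₂, ?_⟩
  intro Y κ _ p hp hL Pz hPz J S n n' hF T D hD hun hlast v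
  set R : κ → ℕ → Y → Prop := fun k m y => ∃ y', lb cl h p m y' = lb cl h p m y ∧
    Nr (n k) (p y') (ks ω C * (1 / 2) ^ m) with hR
  have near : ∀ k ∈ S, ∀ m y, R k m y → Nr (n k) (p y) (2 * ks ω C * (1 / 2) ^ m) := by
    intro k hk m y hy
    obtain ⟨y', h1, h2⟩ := hy
    obtain ⟨h4, h5⟩ := lb_small H hL h1.symm
    exact nr_cell H (hF k hk) (hL y') (by positivity) h4 h5 h2
  have pow1 : ∀ m : ℕ, ((1 : ℝ) / 2) ^ (m + 1) = (1 / 2) ^ m * (1 / 2) := fun m => pow_succ _ _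
  have hmono' : ∀ k ∈ S, ∀ m y, R k (m + 1) y → Nr (n k) (p y) (ks ω C * (1 / 2) ^ m) := by
    intro k hk m y hy
    have h1 := near k hk (m + 1) y hy
    have e : 2 * ks ω C * (1 / 2) ^ (m + 1) = ks ω C * (1 / 2) ^ m := by rw [pow1]; ring
    rwa [e] at h1
  refine whit hPz J (lb cl h p) (lb_fin H hL) (lb_meas H hp) S R ?_ ?_ ?_ (max M₁ M₂) ?_ ?_
    T D hD ?_ ?_ v
  · rintro k _ m x x' hxx ⟨x₀, h1, h2⟩
    exact ⟨x₀, h1.trans hxx, h2⟩
  · intro k hk m x hx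
    exact ⟨x, rfl, hmono' k hk m x hx⟩
  · intro k hk x
    refine ⟨x, rfl, fun b j => ?_⟩
    rw [pow_zero, mul_one]
    refine (norm_le_pi_norm _ _).trans (((hF k hk).mv hC0 _).trans ?_)
    have h1 := (hL x).row_le j
    have h2 : nn ω * C * ‖row (p x) j‖ ≤ k0 ω C * 1 := by
      rw [k0]; have := nn_one (ω := ω); gcongr
    have h3 : k0 ω C ≤ ks ω C := by
      have h2' := k2_two (ω := ω) hC
      have h3 := k3_one (ω := ω) hC
      have h1' := k1_two (ω := ω) hC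
      have : 0 ≤ 2 * k3 ω C * (1 + 3 * C) + 3 * C * k0 ω C * k1 ω C * k3 ω C := by positivity
      rw [ks]; nlinarith
    nlinarith
  · intro k hk m
    obtain ⟨F, hF1, hF2⟩ := hM₁ p hL m (n k) (n' k) (hF k hk)
    exact ⟨F, hF1.trans (le_max_left _ _), fun x hx => hF2 x (near k hk m x hx)⟩
  · intro k hk m
    obtain ⟨F, hF1, hF2⟩ := hM₂ p hL (m + 1) (n k) (n' k) (hF k hk)
    refine ⟨F, hF1.trans (le_max_right _ _), fun x hx => hF2 x ?_⟩
    have h1 := near k hk m x hx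
    have e : 2 * ks ω C * (1 / 2) ^ m = 4 * ks ω C * (1 / 2) ^ (m + 1) := by rw [pow1]; ring
    rwa [e] at h1
  · intro m hm S' hS' hne A hA hAne hRA w
    refine hun m hm S' hS' hne A hA hAne (fun k hk x hx => ?_) w
    obtain ⟨h1, h2⟩ := hRA k hk x hx
    exact ⟨near k (hS' hk) m x h1, fun h5 => h2 ⟨x, rfl, h5⟩⟩
  · intro S' hS' hne A hA hAne hRA w
    exact hlast S' hS' hne A hA hAne (fun k hk x hx => near k (hS' hk) J x (hRA k hk x hx)) w

end main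

end Vale.Agent.P092.H464.QF
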