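import Vale.Agent.P092.H464.Q.Cls
import Vale.Agent.P092.H464.Q.Lab

/-!
P092, Track 3 (helper464): **the bound of the near-2-wall families for forms of Witt index 2**
(COUNT_2).
-/

set_option linter.all false

namespace Vale.Agent.P092.H464.QF

open Finset Matrix
open Vale.Agent.P092.H464 (Pv)
open Vale.Agent.P092.H589.K2 (Cells Nrm Tame Opf)
open Vale.Agent.P092.H589.Mu (Cap)
open Vale.Agent.P092.H835.PlF (w3 Alt alt_wd)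

variable {K : Type} [NormedAddCommGroup K] [InnerProductSpace ℂ K] [CompleteSpace K]
variable {𝕜 : Type} [NontriviallyNormedField 𝕜] [ProperSpace 𝕜] [MeasurableSpace 𝕜] [BorelSpace 𝕜]
variable {ω γ : Type} [Fintype ω] [DecidableEq ω] [Fintype γ]

/-- one class of the Whitney decomposition -/
lemma qcls (cl : Cells 𝕜) {φ : (γ → 𝕜) → ℂ} (hφ : Tame K φ)
    {h : (Ix ω → 𝕜) → (Ix ω → 𝕜) → 𝕜} {C : ℝ} (H : Sf h C) (a : ℝ) (ha : 1 ≤ a) :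
    ∃ B : ℝ, 0 ≤ B ∧ ∀ (X Y : Type) [MeasurableSpace X] (s : X → Ix ω → 𝕜)
      (p : Y → Ix ω × Ix ω → 𝕜), Measurable s → (∀ x, Nrm (s x)) → (∀ y, Ln h (p y)) →
      ∀ (Inc : X → Y → Prop), (∀ x y, Inc x y → w3 (s x) (p y) = 0) →
      ∀ (Pc Pp : Set X → (K →L[ℂ] K)), Pv Pc → Pv Pp →
      ∀ (κ : Type) (S : Finset κ) (n n' : κ → Matrix (Ix ω) (Ix ω) 𝕜) (t : κ → 𝕜)
      (A : κ → Matrix γ (Ix ω) 𝕜) (A' : κ → Matrix (Ix ω) γ 𝕜) (r : ℝ), 0 < r →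
      (∀ k ∈ S, Fr h C (n k) (n' k)) → (∀ k ∈ S, r ≤ a * ‖t k‖ ∧ ‖t k‖ ≤ a * r) →
      (∀ k ∈ S, A' k * A k = 1) → (∀ k ∈ S, ∀ i j, ‖A k i j‖ ≤ a) →
      (∀ k ∈ S, ∀ i j, ‖A' k i j‖ ≤ a) →
      ∀ (E W : κ → (K →L[ℂ] K)) (F : κ → X → ℂ) (N : ℝ), 0 ≤ N → Cap S E N →
      (∀ k ∈ S, ∀ x, F k x = φ (A k *ᵥ Dt (t k) (n k *ᵥ s x))) →
      (∀ k ∈ S, Measurable (F k)) → (∀ k ∈ S, Opf Pp (F k) (W k)) →
      ∀ (J m : ℕ), m ≤ J → (1 / 2) ^ (J + 1) ≤ r → r ≤ (1 / 2) ^ J →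
      ∀ (T : Set Y) (Z : K →L[ℂ] K), T.Nonempty →
      (∀ k ∈ S, ∀ y ∈ T, Nr (n k) (p y) (2 * ks ω C * (1 / 2) ^ m)) →
      (∀ k ∈ S, ∀ y ∈ T, Nr (n k) (p y) (ks ω C * (1 / 2) ^ (m + 1)) → m = J) →
      (∀ k ∈ S, ∀ D D' : Set X, MeasurableSet D → MeasurableSet D' →
        (∀ z ∈ D, ∀ x ∈ D', ∀ y ∈ T, Inc z y → Inc x y →
          (∀ b, ‖(n k *ᵥ s z) (.inl (.inr b))‖ ≤ a * r ^ 2) → False) →
        Pc D * (E k * (W k * (Pp D' * Z))) = 0) →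
      ∀ v, ∑ k ∈ S, ‖E k (W k (Z v))‖ ^ 2 ≤ (B * (((J + 1 : ℕ) : ℝ) + 1) * N) ^ 2 * ‖Z v‖ ^ 2 := by
  classical
  obtain ⟨τ, hτ⟩ := NormedField.exists_one_lt_norm 𝕜
  have hτ0 : 0 < ‖τ‖ := one_pos.trans hτ
  have hC := H.one
  have hs := ks_one (ω := ω) hC
  set a' : ℝ := a + 2 * ks ω C * ‖τ‖ + 4 with ha'
  have hp1 : 0 ≤ 2 * ks ω C * ‖τ‖ := by positivity
  have ha1 : a ≤ a' := by rw [ha']; linarith
  have ha2 : 2 * ks ω C * ‖τ‖ ≤ a' := by rw [ha']; linarith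
  have ha3 : 4 ≤ a' := by rw [ha']; linarith
  have ha4 : ‖τ‖ ≤ a' := by
    refine le_trans ?_ ha2
    nlinarith
  have ha5 : 1 ≤ a' := by linarith
  obtain ⟨B, hB0, hB⟩ := qcore (ω := ω) cl hφ H a' ha5
  refine ⟨B, hB0, ?_⟩
  intro X Y _ s p hsm hsn hL Inc hI Pc Pp hPc hPp κ S n n' t A A' r hr hF ht hAA hA hA' E W F N
    hN hcap hff hfm hop J m hm hJ1 hJ2 T Z hT hnear hfar hch v
  rcases S.eq_empty_or_nonempty with hS | ⟨k0, hk0⟩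
  · rw [hS, sum_empty]; positivity
  obtain ⟨y0, hy0⟩ := hT
  have pos : (0 : ℝ) < (1 / 2) ^ m := by positivity
  obtain ⟨ρ, hρ, hρ1, hρ2⟩ := H835.NF.exists_scale hτ
    (show (0 : ℝ) < (1 / 2) ^ m / ‖τ‖ from div_pos pos hτ0)
  rw [div_le_iff₀ hτ0] at hρ1
  rw [mul_div_cancel₀ _ hτ0.ne'] at hρ2
  have hm1 : ((1 : ℝ) / 2) ^ m ≤ 1 := pow_le_one₀ (by norm_num) (by norm_num)
  have hrm : r ≤ (1 / 2) ^ m :=
    hJ2.trans (pow_le_pow_of_le_one (by norm_num) (by norm_num) hm)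
  have hnr : ∀ k ∈ S, ∀ y ∈ T, Nr (n k) (p y) (a' * ‖ρ‖) := fun k hk y hy =>
    (hnear k hk y hy).mono (by positivity) (by
      calc 2 * ks ω C * (1 / 2) ^ m ≤ 2 * ks ω C * (‖ρ‖ * ‖τ‖) := by gcongr
        _ = (2 * ks ω C * ‖τ‖) * ‖ρ‖ := by ring
        _ ≤ a' * ‖ρ‖ := by gcongr)
  refine hB X Y s p Inc Pc Pp κ S (n k0) (n' k0) n n' t A A' r ρ y0 T Z E W F N
    { ms := hsm, ns := hsn, ln := hL, ic := hI, pc := hPc, pp := hPp, r0 := hr, h0 := hρ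
      h1 := hρ2.trans hm1, rr := ?_, f0 := hF k0 hk0, fk := hF, y0 := hnr k0 hk0 y0 hy0
      yk := fun k hk => hnr k hk y0 hy0
      tl := fun k hk => (ht k hk).1.trans (mul_le_mul_of_nonneg_right ha1 (norm_nonneg _))
      tu := fun k hk => (ht k hk).2.trans (mul_le_mul_of_nonneg_right ha1 hr.le)
      aa := hAA, al1 := fun k hk i j => (hA k hk i j).trans ha1
      al2 := fun k hk i j => (hA' k hk i j).trans ha1
      tn := fun y hy => hnr k0 hk0 y hy, st := ?_, ch := ?_, n0 := hN, cap := hcap, ff := hff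
      mf := hfm, op := hop } (J + 1) hJ1 v
  · calc r ≤ (1 / 2) ^ m := hrm
      _ ≤ ‖ρ‖ * ‖τ‖ := hρ1
      _ ≤ ‖ρ‖ * a' := by gcongr
      _ = _ := mul_comm _ _
  · intro k hk y hy
    by_cases hR : Nr (n k) (p y) (ks ω C * (1 / 2) ^ (m + 1))
    · right
      have hmJ := hfar k hk y hy hR
      calc ‖ρ‖ ≤ (1 / 2) ^ m := hρ2
        _ = 2 * (1 / 2) ^ (J + 1) := by rw [hmJ, pow_succ]; ring
        _ ≤ 2 * r := by gcongr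
        _ ≤ a' * r := by gcongr; linarith
    · left
      simp only [Nr, not_forall, not_le] at hR
      obtain ⟨b, j, h2⟩ := hR
      refine ⟨b, j, ?_⟩
      have h3 : ‖ρ‖ ^ 2 ≤ 4 * (ks ω C * (1 / 2) ^ (m + 1)) ^ 2 := by
        calc ‖ρ‖ ^ 2 ≤ ((1 / 2) ^ m) ^ 2 := pow_le_pow_left₀ (norm_nonneg _) hρ2 2
          _ = 4 * (1 * (1 / 2) ^ (m + 1)) ^ 2 := by rw [pow_succ]; ring
          _ ≤ _ := by gcongr
      calc ‖ρ‖ ^ 2 ≤ 4 * (ks ω C * (1 / 2) ^ (m + 1)) ^ 2 := h3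
        _ ≤ 4 * ‖(n k *ᵥ row (p y) j) (.inl (.inr b))‖ := by linarith
        _ ≤ _ := by gcongr
  · intro k hk D D' hD hD' hno
    refine hch k hk D D' hD hD' fun z hz x hx y hy h1 h2 h3 => hno z hz x hx y hy h1 h2 ?_
    exact fun b => (h3 b).trans (mul_le_mul_of_nonneg_right ha1 (sq_nonneg _))

/-- **the bound of the near-2-wall families (COUNT_2), forms of Witt index 2** -/
theorem kb3 (cl : Cells 𝕜) {φ : (γ → 𝕜) → ℂ} (hφ : Tame K φ)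
    {h : (Ix ω → 𝕜) → (Ix ω → 𝕜) → 𝕜} {C : ℝ} (H : Sf h C) (a : ℝ) (ha : 1 ≤ a) :
    ∃ B : ℝ, 0 ≤ B ∧ ∀ (X Y : Type) [MeasurableSpace X] [MeasurableSpace Y] (s : X → Ix ω → 𝕜)
      (p : Y → Ix ω × Ix ω → 𝕜), Measurable s → Measurable p → (∀ x, Nrm (s x)) →
      (∀ y, Ln h (p y)) → ∀ (Inc : X → Y → Prop), (∀ x y, Inc x y → w3 (s x) (p y) = 0) →
      ∀ (Pc Pp : Set X → (K →L[ℂ] K)) (Lm : Set Y → (K →L[ℂ] K)), Pv Pc → Pv Pp → Pv Lm →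
      ∀ (κ : Type) (S : Finset κ) (n n' : κ → Matrix (Ix ω) (Ix ω) 𝕜) (t : κ → 𝕜)
      (A : κ → Matrix γ (Ix ω) 𝕜) (A' : κ → Matrix (Ix ω) γ 𝕜) (r : ℝ), 0 < r → r ≤ 1 →
      (∀ k ∈ S, Fr h C (n k) (n' k)) → (∀ k ∈ S, r ≤ a * ‖t k‖ ∧ ‖t k‖ ≤ a * r) →
      (∀ k ∈ S, A' k * A k = 1) → (∀ k ∈ S, ∀ i j, ‖A k i j‖ ≤ a) →
      (∀ k ∈ S, ∀ i j, ‖A' k i j‖ ≤ a) →
      ∀ (E W : κ → (K →L[ℂ] K)) (F : κ → X → ℂ) (N : ℝ), 0 ≤ N → Cap S E N →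
      (∀ k ∈ S, ∀ x, F k x = φ (A k *ᵥ Dt (t k) (n k *ᵥ s x))) →
      (∀ k ∈ S, Measurable (F k)) → (∀ k ∈ S, Opf Pp (F k) (W k)) →
      (∀ k ∈ S, ∀ (D D' : Set X) (T : Set Y), MeasurableSet D → MeasurableSet D' →
        MeasurableSet T → (∀ z ∈ D, ∀ x ∈ D', ∀ y ∈ T, Inc z y → Inc x y →
          (∀ b, ‖(n k *ᵥ s z) (.inl (.inr b))‖ ≤ a * r ^ 2) → False) →
        Pc D * (E k * (W k * (Pp D' * Lm T))) = 0) →
      Cap S (fun k => E k * W k) (B * (1 + Real.log (1 / r)) ^ 2 * N) := by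
  classical
  obtain ⟨CB, hCB0, hCB⟩ := qcls (ω := ω) cl hφ H a ha
  obtain ⟨M, hM⟩ := lwhit (K := K) (ω := ω) cl H
  refine ⟨M * (2 * (CB * 3)), by positivity, ?_⟩
  intro X Y _ _ s p hs hp hns hL Inc hI Pc Pp Lm hPc hPp hLm κ S n n' t A A' r hr hr1 hF ht hAA
    hA hA' E W F N hN hcap hff hfm hop hch v
  obtain ⟨J, hJ1, hJ2⟩ := exists_nat_pow_near_of_lt_one hr hr1 (by norm_num : (0 : ℝ) < 1 / 2)
    (by norm_num)
  have hlog : 0 ≤ Real.log (1 / r) := Real.log_nonneg (by rw [le_div_iff₀ hr]; linarith)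
  have hJlog : (J : ℝ) ≤ 2 * Real.log (1 / r) := by
    have h1 : Real.log r ≤ J * Real.log (1 / 2) := by
      rw [← Real.log_pow]
      exact Real.log_le_log hr hJ2
    have h2 : Real.log (1 / r) = - Real.log r := by rw [one_div, Real.log_inv]
    have h3 : Real.log (1 / 2) = - Real.log 2 := by rw [one_div, Real.log_inv]
    have h4 : (1 : ℝ) / 2 ≤ Real.log 2 := by linarith [Real.log_two_gt_d9]
    rw [h3] at h1
    rw [h2]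
    have h5 : (0 : ℝ) ≤ J := Nat.cast_nonneg _
    nlinarith
  -- one class
  have cls : ∀ m ≤ J, ∀ S' ⊆ S, ∀ D : Set Y, MeasurableSet D → D.Nonempty →
      (∀ k ∈ S', ∀ y ∈ D, Nr (n k) (p y) (2 * ks ω C * (1 / 2) ^ m)) →
      (∀ k ∈ S', ∀ y ∈ D, Nr (n k) (p y) (ks ω C * (1 / 2) ^ (m + 1)) → m = J) → ∀ v,
      ∑ k ∈ S', ‖(E k * W k) (Lm D v)‖ ^ 2 ≤ (CB * (((J + 1 : ℕ) : ℝ) + 1) * N) ^ 2 *
        ‖Lm D v‖ ^ 2 := by
    intro m hm S' hS' D hD hDne hnear hfar v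
    exact hCB X Y s p hs hns hL Inc hI Pc Pp hPc hPp κ S' n n' t A A' r hr
      (fun k hk => hF k (hS' hk)) (fun k hk => ht k (hS' hk)) (fun k hk => hAA k (hS' hk))
      (fun k hk => hA k (hS' hk)) (fun k hk => hA' k (hS' hk)) E W F N hN
      (fun w => (sum_le_sum_of_subset_of_nonneg hS' fun _ _ _ => sq_nonneg _).trans (hcap w))
      (fun k hk => hff k (hS' hk)) (fun k hk => hfm k (hS' hk)) (fun k hk => hop k (hS' hk))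
      J m hm hJ1.le hJ2 D (Lm D) hDne hnear hfar
      (fun k hk D₁ D₂ hD₁ hD₂ hno => hch k (hS' hk) D₁ D₂ D hD₁ hD₂ hD hno) v
  have hw := hM p hp hL hLm J S n n' hF (fun k => E k * W k) (CB * (((J + 1 : ℕ) : ℝ) + 1) * N)
    (by positivity)
    (fun m hm S' hS' _ D hD hDne hRD w => cls m hm.le S' hS' D hD hDne
      (fun k hk y hy => (hRD k hk y hy).1) (fun k hk y hy h => absurd h (hRD k hk y hy).2) w)
    (fun S' hS' _ D hD hDne hRD w => cls J le_rfl S' hS' D hD hDne hRD (fun _ _ _ _ _ => rfl) w)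
    v
  refine hw.trans ?_
  have hMn : (0 : ℝ) ≤ ((M : ℕ) : ℝ) := Nat.cast_nonneg _
  refine mul_le_mul_of_nonneg_right (pow_le_pow_left₀ (by positivity) ?_ 2) (sq_nonneg _)
  have h1 : (J : ℝ) + 1 ≤ 2 * (1 + Real.log (1 / r)) := by linarith
  have h2 : ((J + 1 : ℕ) : ℝ) + 1 ≤ 3 * (1 + Real.log (1 / r)) := by push_cast; linarith
  calc ((M : ℕ) : ℝ) * (J + 1) * (CB * (((J + 1 : ℕ) : ℝ) + 1) * N)
      ≤ ((M : ℕ) : ℝ) * (2 * (1 + Real.log (1 / r))) *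
        (CB * (3 * (1 + Real.log (1 / r))) * N) := by gcongr
    _ = _ := by ring

end Vale.Agent.P092.H464.QF
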