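import Vale.Agent.P092.H464.Q.Ins
import Vale.Agent.P092.H589.K2y

/-!
P092, Track 3, COUNT_2 for forms of Witt index 2 (helper464): the class step.
-/

set_option linter.all false

namespace Vale.Agent.P092.H464.QF

open Finset Matrix
open Vale.Agent.P092.H464 (Pv)
open Vale.Agent.P092.H464.PW (mulVec_le)
open Vale.Agent.P092.H589.K2 (Cells Nrm Tame Opf unit nrm_one exists_nrm mn)
open Vale.Agent.P092.H589.Mu (Cap)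
open Vale.Agent.P092.H820 (wd)
open Vale.Agent.P092.H835.PlF (w3 Alt alt_wd)

section lin

variable {𝕜 : Type} [NontriviallyNormedField 𝕜] {ω γ : Type} [Fintype ω] [DecidableEq ω]
  [Fintype γ]

lemma kz_mul {ρ : 𝕜} (hρ : ρ ≠ 0) (M N : Matrix (Ix ω) (Ix ω) 𝕜) :
    kz ρ M * kz ρ N = kz ρ (M * N) := by
  ext i j
  simp only [Matrix.mul_apply, kz, Matrix.of_apply, mul_sum, sum_mul]
  refine sum_congr rfl fun l _ => ?_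
  have h1 : ρ ^ wt l ≠ 0 := pow_ne_zero _ hρ
  have h2 : ρ ^ wt j ≠ 0 := pow_ne_zero _ hρ
  field_simp

lemma kz_one {ρ : 𝕜} (hρ : ρ ≠ 0) : kz ρ (1 : Matrix (Ix ω) (Ix ω) 𝕜) = 1 := by
  ext i j
  simp only [kz, Matrix.of_apply, Matrix.one_apply]
  split_ifs with hij
  · subst hij
    have h1 : ρ ^ wt i ≠ 0 := pow_ne_zero _ hρ
    field_simp
  · ring

lemma Dt_le {t : 𝕜} {B : ℝ} (hB : 1 ≤ B) (ht : ‖t‖ ≤ B) (x : Ix ω → 𝕜) :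
    ‖Dt t x‖ ≤ B ^ 2 * ‖x‖ := by
  refine (pi_norm_le_iff_of_nonneg (by positivity)).2 fun i => ?_
  rw [Dt_apply, norm_mul, norm_pow]
  have h1 : ‖t‖ ^ wt i ≤ B ^ wt i := pow_le_pow_left₀ (norm_nonneg _) ht _
  have h2 : B ^ wt i ≤ B ^ 2 := pow_le_pow_right₀ hB (wt_le i)
  exact mul_le_mul (h1.trans h2) (norm_le_pi_norm x i) (norm_nonneg _) (by positivity)

lemma le_Dt {t : 𝕜} {m : ℝ} (hm : 0 < m) (hm1 : m ≤ 1) (ht : m ≤ ‖t‖) (x : Ix ω → 𝕜) :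
    m ^ 2 * ‖x‖ ≤ ‖Dt t x‖ := by
  have h1 : ‖x‖ ≤ (m ^ 2)⁻¹ * ‖Dt t x‖ := by
    refine (pi_norm_le_iff_of_nonneg (by positivity)).2 fun i => ?_
    have h2 := norm_le_pi_norm (Dt t x) i
    rw [Dt_apply, norm_mul, norm_pow] at h2
    have h3 : m ^ 2 ≤ ‖t‖ ^ wt i :=
      (pow_le_pow_of_le_one hm.le hm1 (wt_le i)).trans (pow_le_pow_left₀ hm.le ht _)
    rw [inv_mul_eq_div, le_div_iff₀ (by positivity)]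
    calc ‖x i‖ * m ^ 2 ≤ ‖x i‖ * ‖t‖ ^ wt i := by gcongr
      _ = ‖t‖ ^ wt i * ‖x i‖ := mul_comm _ _
      _ ≤ _ := h2
  rw [inv_mul_eq_div, le_div_iff₀ (by positivity)] at h1
  linarith

/-- the dilation as a linear map -/
def DtL (t : 𝕜) : (Ix ω → 𝕜) →ₗ[𝕜] (Ix ω → 𝕜) where
  toFun := Dt t
  map_add' := Dt_add t
  map_smul' := Dt_smul t

/-- the maps `L k` -/
def ll (A : Matrix γ (Ix ω) 𝕜) (d : 𝕜) (n : Matrix (Ix ω) (Ix ω) 𝕜) :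
    (Ix ω → 𝕜) →ₗ[𝕜] (γ → 𝕜) := A.mulVecLin.comp ((DtL d).comp n.mulVecLin)

lemma ll_apply (A : Matrix γ (Ix ω) 𝕜) (d : 𝕜) (n : Matrix (Ix ω) (Ix ω) 𝕜) (x : Ix ω → 𝕜) :
    ll A d n x = A *ᵥ Dt d (n *ᵥ x) := rfl

lemma ll_le {A : Matrix γ (Ix ω) 𝕜} {n : Matrix (Ix ω) (Ix ω) 𝕜} {d : 𝕜} {a B K : ℝ}
    (ha : 0 ≤ a) (hA : ∀ i j, ‖A i j‖ ≤ a) (hK : 0 ≤ K) (hn : ∀ i j, ‖n i j‖ ≤ K) (hB : 1 ≤ B)
    (hd : ‖d‖ ≤ B) (x : Ix ω → 𝕜) : ‖ll A d n x‖ ≤ (nn ω * a * (B ^ 2 * (nn ω * K))) * ‖x‖ := by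
  have h0 := nn_one (ω := ω)
  rw [ll_apply]
  have h1 : ‖A *ᵥ Dt d (n *ᵥ x)‖ ≤ nn ω * a * ‖Dt d (n *ᵥ x)‖ := mulVec_le ha hA _
  have h2 : ‖n *ᵥ x‖ ≤ nn ω * K * ‖x‖ := mulVec_le hK hn _
  have h3 := Dt_le hB hd (n *ᵥ x)
  calc _ ≤ nn ω * a * (B ^ 2 * (nn ω * K * ‖x‖)) := by
        refine h1.trans ?_
        gcongr
        exact h3.trans (by gcongr)
    _ = _ := by ring

lemma mid_le {A : Matrix γ (Ix ω) 𝕜} {A' : Matrix (Ix ω) γ 𝕜} {n : Matrix (Ix ω) (Ix ω) 𝕜}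
    {d : 𝕜} {a : ℝ} (ha : 0 ≤ a) (hA : A' * A = 1) (hA' : ∀ i j, ‖A' i j‖ ≤ a)
    (x : Ix ω → 𝕜) : ‖Dt d (n *ᵥ x)‖ ≤ Fintype.card γ * a * ‖ll A d n x‖ := by
  have h1 := mulVec_le ha hA' (ll A d n x)
  rwa [ll_apply, mulVec_mulVec, hA, one_mulVec] at h1

lemma le_ll {A : Matrix γ (Ix ω) 𝕜} {A' : Matrix (Ix ω) γ 𝕜} {n n' : Matrix (Ix ω) (Ix ω) 𝕜}
    {d : 𝕜} {a K m : ℝ} (ha : 0 ≤ a) (hA : A' * A = 1) (hA' : ∀ i j, ‖A' i j‖ ≤ a) (hK : 0 ≤ K)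
    (hn : n' * n = 1) (hn' : ∀ i j, ‖n' i j‖ ≤ K) (hm : 0 < m) (hm1 : m ≤ 1) (hmd : m ≤ ‖d‖)
    (x : Ix ω → 𝕜) : m ^ 2 * ‖x‖ ≤ (nn ω * K * (Fintype.card γ * a)) * ‖ll A d n x‖ := by
  have h0 := nn_one (ω := ω)
  have h1 := mid_le (d := d) (n := n) ha hA hA' x
  have h2 : ‖x‖ ≤ nn ω * K * ‖n *ᵥ x‖ := by
    have := mulVec_le hK hn' (n *ᵥ x)
    rwa [mulVec_mulVec, hn, one_mulVec] at this
  have h3 := le_Dt hm hm1 hmd (n *ᵥ x)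
  calc m ^ 2 * ‖x‖ ≤ m ^ 2 * (nn ω * K * ‖n *ᵥ x‖) := by gcongr
    _ = nn ω * K * (m ^ 2 * ‖n *ᵥ x‖) := by ring
    _ ≤ nn ω * K * (Fintype.card γ * a * ‖ll A d n x‖) := by
        exact mul_le_mul_of_nonneg_left (h3.trans h1) (by positivity)
    _ = _ := by ring

end lin

section

variable (K : Type) [NormedAddCommGroup K] [InnerProductSpace ℂ K] [CompleteSpace K]
variable {𝕜 : Type} [NontriviallyNormedField 𝕜] [ProperSpace 𝕜] [MeasurableSpace 𝕜] [BorelSpace 𝕜]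
variable {ω γ : Type} [Fintype ω] [DecidableEq ω] [Fintype γ]

/-- the data of the class step -/
structure QD (h : (Ix ω → 𝕜) → (Ix ω → 𝕜) → 𝕜) (C a : ℝ) (φ : (γ → 𝕜) → ℂ) {X Y : Type}
    [MeasurableSpace X] (s : X → Ix ω → 𝕜) (p : Y → Ix ω × Ix ω → 𝕜) (Inc : X → Y → Prop)
    (Pc Pp : Set X → (K →L[ℂ] K)) {κ : Type} (S : Finset κ)
    (n₀ n₀' : Matrix (Ix ω) (Ix ω) 𝕜) (n n' : κ → Matrix (Ix ω) (Ix ω) 𝕜) (t : κ → 𝕜)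
    (A : κ → Matrix γ (Ix ω) 𝕜) (A' : κ → Matrix (Ix ω) γ 𝕜) (r : ℝ) (ρ : 𝕜) (y₀ : Y)
    (T : Set Y) (Z : K →L[ℂ] K) (E W : κ → (K →L[ℂ] K)) (F : κ → X → ℂ) (N : ℝ) : Prop where
  ms : Measurable s
  ns : ∀ x, Nrm (s x)
  ln : ∀ y, Ln h (p y)
  ic : ∀ x y, Inc x y → w3 (s x) (p y) = 0
  pc : Pv Pc
  pp : Pv Pp
  r0 : 0 < r
  h0 : ρ ≠ 0
  h1 : ‖ρ‖ ≤ 1
  rr : r ≤ a * ‖ρ‖
  f0 : Fr h C n₀ n₀'
  fk : ∀ k ∈ S, Fr h C (n k) (n' k)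
  y0 : Nr n₀ (p y₀) (a * ‖ρ‖)
  yk : ∀ k ∈ S, Nr (n k) (p y₀) (a * ‖ρ‖)
  tl : ∀ k ∈ S, r ≤ a * ‖t k‖
  tu : ∀ k ∈ S, ‖t k‖ ≤ a * r
  aa : ∀ k ∈ S, A' k * A k = 1
  al1 : ∀ k ∈ S, ∀ i j, ‖A k i j‖ ≤ a
  al2 : ∀ k ∈ S, ∀ i j, ‖A' k i j‖ ≤ a
  tn : ∀ y ∈ T, Nr n₀ (p y) (a * ‖ρ‖)
  st : ∀ k ∈ S, ∀ y ∈ T, (∃ b j, ‖ρ‖ ^ 2 ≤ a * ‖(n k *ᵥ row (p y) j) (.inl (.inr b))‖) ∨
    ‖ρ‖ ≤ a * r
  ch : ∀ k ∈ S, ∀ D D' : Set X, MeasurableSet D → MeasurableSet D' →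
    (∀ z ∈ D, ∀ x ∈ D', ∀ y ∈ T, Inc z y → Inc x y →
      (∀ b, ‖(n k *ᵥ s z) (.inl (.inr b))‖ ≤ a * r ^ 2) → False) →
    Pc D * (E k * (W k * (Pp D' * Z))) = 0
  n0 : 0 ≤ N
  cap : Cap S E N
  ff : ∀ k ∈ S, ∀ x, F k x = φ (A k *ᵥ Dt (t k) (n k *ᵥ s x))
  mf : ∀ k ∈ S, Measurable (F k)
  op : ∀ k ∈ S, Opf Pp (F k) (W k)

variable {K}

lemma Nr.mono {κ : Matrix (Ix ω) (Ix ω) 𝕜} {p : Ix ω × Ix ω → 𝕜} {ε ε' : ℝ} (h : Nr κ p ε)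
    (hε : 0 ≤ ε) (he : ε ≤ ε') : Nr κ p ε' := fun b j =>
  (h b j).trans (pow_le_pow_left₀ hε he 2)

lemma cnt_le (J J₁ : ℕ) : (((2 * J + J₁ : ℕ) : ℝ) + 1) ≤ (J₁ + 2) * (J + 1) := by
  push_cast
  nlinarith [mul_nonneg (Nat.cast_nonneg (α := ℝ) J) (Nat.cast_nonneg (α := ℝ) J₁)]

lemma low_le {r c2 Λ : ℝ} {J J₁ : ℕ} (hJ : (1 / 2) ^ J ≤ r) (hJ₁ : c2 < 2 ^ J₁) (hΛ : 0 ≤ Λ)
    (h1 : r ^ 2 ≤ c2 * Λ) : (1 / 2) ^ (2 * J + J₁) ≤ Λ := by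
  have h0 : ((1 : ℝ) / 2) ^ (2 * J) ≤ c2 * Λ := by
    refine le_trans ?_ h1
    rw [mul_comm, pow_mul]
    exact pow_le_pow_left₀ (by positivity) hJ 2
  have h2 : c2 * Λ ≤ 2 ^ J₁ * Λ := mul_le_mul_of_nonneg_right hJ₁.le hΛ
  have h4 : ((1 : ℝ) / 2) ^ J₁ * 2 ^ J₁ = 1 := by rw [← mul_pow]; norm_num
  calc ((1 : ℝ) / 2) ^ (2 * J + J₁) = (1 / 2) ^ (2 * J) * (1 / 2) ^ J₁ := pow_add _ _ _
    _ ≤ (2 ^ J₁ * Λ) * (1 / 2) ^ J₁ := by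
        gcongr; exact h0.trans h2
    _ = ((1 / 2) ^ J₁ * 2 ^ J₁) * Λ := by ring
    _ = _ := by rw [h4, one_mul]

/-- the zoomed section -/
lemma zsec {h : (Ix ω → 𝕜) → (Ix ω → 𝕜) → 𝕜} {C : ℝ} (hC : 1 ≤ C)
    {n₀ n₀' : Matrix (Ix ω) (Ix ω) 𝕜} (F₀ : Fr h C n₀ n₀') {ρ : 𝕜} (hρ : ρ ≠ 0) (hρ1 : ‖ρ‖ ≤ 1)
    {X : Type} [MeasurableSpace X] {s : X → Ix ω → 𝕜} (ms : Measurable s) (ns : ∀ x, Nrm (s x)) :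
    ∃ (q : X → Ix ω → 𝕜) (c : X → 𝕜), Measurable q ∧ ∀ x, Nrm (q x) ∧ c x ≠ 0 ∧
      q x = c x • gz ρ n₀ (s x) ∧ ‖c x‖ ≤ k0 ω C := by
  have hC0 : 0 ≤ C := by linarith
  have hk0 := k0_one (ω := ω) hC
  have hρn : 0 < ‖ρ‖ := norm_pos_iff.2 hρ
  have hgz : ∀ x, ‖s x‖ ≤ k0 ω C * ‖gz ρ n₀ (s x)‖ := by
    intro x
    have h1 : ‖s x‖ ≤ k0 ω C * ‖n₀ *ᵥ s x‖ := by
      have := F₀.mv' hC0 (n₀ *ᵥ s x)
      rwa [F₀.kl] at this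
    have h2 := le_Dt hρn hρ1 le_rfl (n₀ *ᵥ s x)
    have h3 : ‖n₀ *ᵥ s x‖ ≤ ‖gz ρ n₀ (s x)‖ := by
      rw [gz, norm_smul, norm_inv, norm_pow, inv_mul_eq_div, le_div_iff₀ (by positivity)]
      linarith
    calc _ ≤ _ := h1
      _ ≤ _ := by gcongr
  have hgm : Measurable fun x => gz ρ n₀ (s x) := by
    have hc : Continuous fun w : Ix ω → 𝕜 => gz ρ n₀ w := by
      refine continuous_pi fun i => ?_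
      simp only [gz, Pi.smul_apply, Dt_apply, smul_eq_mul, Matrix.mulVec, dotProduct]
      fun_prop
    exact hc.measurable.comp ms
  obtain ⟨q, hqm, hq⟩ := exists_nrm hgm (fun x h0 => by
    have h1 := hgz x
    rw [h0, norm_zero, mul_zero, nrm_one (ns x)] at h1
    linarith)
  choose hqn c hc0 hqc using hq
  refine ⟨q, c, hqm, fun x => ⟨hqn x, hc0 x, hqc x, ?_⟩⟩
  have h1 := hgz x
  rw [nrm_one (ns x)] at h1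
  have h2 : ‖c x‖ * ‖gz ρ n₀ (s x)‖ = 1 := by
    rw [← norm_smul, ← hqc x]; exact nrm_one (hqn x)
  calc ‖c x‖ = ‖c x‖ * 1 := (mul_one _).symm
    _ ≤ ‖c x‖ * (k0 ω C * ‖gz ρ n₀ (s x)‖) := by gcongr
    _ = k0 ω C * (‖c x‖ * ‖gz ρ n₀ (s x)‖) := by ring
    _ = k0 ω C := by rw [h2, mul_one]

/-- the insulation, in zoomed coordinates -/
lemma qins {h : (Ix ω → 𝕜) → (Ix ω → 𝕜) → 𝕜} {C : ℝ} (H : Sf h C)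
    {n₀ n₀' n : Matrix (Ix ω) (Ix ω) 𝕜} (F₀ : Fr h C n₀ n₀') {a : ℝ} (ha : 1 ≤ a) {ρ : 𝕜}
    (hρ : ρ ≠ 0) (hρ1 : ‖ρ‖ ≤ 1) {p : Ix ω × Ix ω → 𝕜} (L : Ln h p) (tn : Nr n₀ p (a * ‖ρ‖))
    {r : ℝ} (st : (∃ b j, ‖ρ‖ ^ 2 ≤ a * ‖(n *ᵥ row p j) (.inl (.inr b))‖) ∨ ‖ρ‖ ≤ a * r)
    {z x : Ix ω → 𝕜} (hz : w3 z p = 0) (hx : w3 x p = 0) (hz1 : ‖z‖ ≤ 1) (hx1 : ‖x‖ ≤ 1)
    {qz qx : Ix ω → 𝕜} {cz cx : 𝕜} (hqz : qz = cz • gz ρ n₀ z) (hqx : qx = cx • gz ρ n₀ x)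
    (hqz1 : ‖qz‖ ≤ 1) (hqx1 : ‖qx‖ ≤ 1) (hcz : ‖cz‖ ≤ k0 ω C) (hcx : ‖cx‖ ≤ k0 ω C) {t : 𝕜}
    {c2 c3 e Δ : ℝ} (hzn : ∀ b, ‖(n *ᵥ z) (.inl (.inr b))‖ ≤ a * r ^ 2)
    (hmd : ‖Dt (t * ρ⁻¹) (kz ρ (n * n₀') *ᵥ qx)‖ ≤ c3 * Δ)
    (hlw : r ^ 2 ≤ ‖ρ‖ ^ 2 * (c2 * Δ)) (hΔ : 0 ≤ Δ) (hea : a ≤ e) (heb : k0 ω C ≤ e)
    (hec : c3 ≤ e) (hed : c2 ≤ e) (hc2 : 0 ≤ c2) (P Q : Ix ω) :
    ‖mn qz qx P Q‖ ≤ (2 * (a ^ 2 * c2) + e * (e ^ 4 + e ^ 2) * w1 ω C e) * Δ := by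
  have hC := H.one
  have hC0 : 0 ≤ C := by linarith
  have hk0 := k0_one (ω := ω) hC
  have hρn : 0 < ‖ρ‖ := norm_pos_iff.2 hρ
  have he1 : 1 ≤ e := ha.trans hea
  have he0 : 0 ≤ e := by linarith
  have hw1 : 0 ≤ w1 ω C e := by rw [w1]; positivity
  have ha0 : 0 ≤ a := by linarith
  rcases st with h1 | h1
  · obtain ⟨b₀, j₀, h1⟩ := h1
    have hmid : kz ρ (n * n₀') *ᵥ qx = cx • ((ρ ^ 2)⁻¹ • Dt ρ (n *ᵥ x)) := by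
      rw [hqx, gz, Matrix.mulVec_smul, Matrix.mulVec_smul, kz_mulVec hρ, ← Matrix.mulVec_mulVec,
        F₀.kl]
    have hins := ins (κ := n) H F₀ L he1 hρ hρ1
      (tn.mono (by positivity) (mul_le_mul_of_nonneg_right hea hρn.le))
      ⟨b₀, j₀, h1.trans (mul_le_mul_of_nonneg_right hea (norm_nonneg _))⟩ hz hx
      hz1 hx1 (hcz.trans heb) (hcx.trans heb) (r := r) (Δ := Δ)
      (fun b => ?_) (fun b => ?_) hΔ ?_ (P, Q)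
    · rw [← hqz, ← hqx] at hins
      have e' : mn qz qx P Q = wd qz qx (P, Q) := by
        simp only [mn, wd]; ring
      rw [e']
      refine hins.trans ?_
      gcongr
      have : 0 ≤ 2 * (a ^ 2 * c2) := by positivity
      linarith
    · exact (hzn b).trans (by gcongr)
    · have h2 := (norm_le_pi_norm (Dt (t * ρ⁻¹) (kz ρ (n * n₀') *ᵥ qx))
        (.inl (.inr b))).trans hmd
      rw [hmid, Dt_apply, wt_m, pow_zero, one_mul, Pi.smul_apply, Pi.smul_apply, Dt_apply,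
        wt_m, pow_zero, one_mul, norm_smul, norm_smul, norm_inv, norm_pow] at h2
      have h3 : ‖cx‖ * ‖(n *ᵥ x) (.inl (.inr b))‖ =
          (‖cx‖ * ((‖ρ‖ ^ 2)⁻¹ * ‖(n *ᵥ x) (.inl (.inr b))‖)) * ‖ρ‖ ^ 2 := by
        field_simp
      rw [h3]
      calc _ ≤ (c3 * Δ) * ‖ρ‖ ^ 2 := mul_le_mul_of_nonneg_right h2 (by positivity)
        _ ≤ _ := by gcongr
    · calc r ^ 2 ≤ ‖ρ‖ ^ 2 * (c2 * Δ) := hlw
        _ = c2 * Δ * ‖ρ‖ ^ 2 := by ring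
        _ ≤ _ := by gcongr
  · have h3 : ‖ρ‖ ^ 2 * 1 ≤ ‖ρ‖ ^ 2 * (a ^ 2 * (c2 * Δ)) := by
      calc ‖ρ‖ ^ 2 * 1 = ‖ρ‖ ^ 2 := mul_one _
        _ ≤ (a * r) ^ 2 := pow_le_pow_left₀ hρn.le h1 2
        _ = a ^ 2 * r ^ 2 := by ring
        _ ≤ a ^ 2 * (‖ρ‖ ^ 2 * (c2 * Δ)) := by gcongr
        _ = _ := by ring
    have h4 : 1 ≤ a ^ 2 * (c2 * Δ) := le_of_mul_le_mul_left h3 (by positivity)
    have h5 : ‖mn qz qx P Q‖ ≤ 2 := by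
      have a1 : ∀ R, ‖qz R‖ ≤ 1 := fun R => (norm_le_pi_norm _ R).trans hqz1
      have a2 : ∀ R, ‖qx R‖ ≤ 1 := fun R => (norm_le_pi_norm _ R).trans hqx1
      refine (norm_sub_le _ _).trans ?_
      rw [norm_mul, norm_mul]
      have b1 := mul_le_mul (a1 P) (a2 Q) (norm_nonneg _) zero_le_one
      have b2 := mul_le_mul (a2 P) (a1 Q) (norm_nonneg _) zero_le_one
      linarith
    have h6 : 0 ≤ e * (e ^ 4 + e ^ 2) * w1 ω C e * Δ := by positivity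
    calc _ ≤ 2 * 1 := by linarith
      _ ≤ 2 * (a ^ 2 * (c2 * Δ)) := by gcongr
      _ ≤ _ := by nlinarith

/-- **the class step** -/
theorem qcore (cl : Cells 𝕜) {φ : (γ → 𝕜) → ℂ} (hφ : Tame K φ)
    {h : (Ix ω → 𝕜) → (Ix ω → 𝕜) → 𝕜} {C : ℝ} (H : Sf h C) (a : ℝ) (ha : 1 ≤ a) :
    ∃ B : ℝ, 0 ≤ B ∧ ∀ (X Y : Type) [MeasurableSpace X] (s : X → Ix ω → 𝕜)
      (p : Y → Ix ω × Ix ω → 𝕜) (Inc : X → Y → Prop) (Pc Pp : Set X → (K →L[ℂ] K)) (κ : Type)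
      (S : Finset κ) (n₀ n₀' : Matrix (Ix ω) (Ix ω) 𝕜) (n n' : κ → Matrix (Ix ω) (Ix ω) 𝕜)
      (t : κ → 𝕜) (A : κ → Matrix γ (Ix ω) 𝕜) (A' : κ → Matrix (Ix ω) γ 𝕜) (r : ℝ) (ρ : 𝕜)
      (y₀ : Y) (T : Set Y) (Z : K →L[ℂ] K) (E W : κ → (K →L[ℂ] K)) (F : κ → X → ℂ) (N : ℝ),
      QD K h C a φ s p Inc Pc Pp S n₀ n₀' n n' t A A' r ρ y₀ T Z E W F N →
      ∀ J : ℕ, (1 / 2) ^ J ≤ r →
      ∀ v, ∑ k ∈ S, ‖E k (W k (Z v))‖ ^ 2 ≤ (B * (J + 1) * N) ^ 2 * ‖Z v‖ ^ 2 := by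
  classical
  have hC := H.one
  have hC0 : 0 ≤ C := by linarith
  have ha0 : 0 ≤ a := by linarith
  have ha0' : 0 < a := by linarith
  have hk0 := k0_one (ω := ω) hC
  have hnn := nn_one (ω := ω)
  obtain ⟨K₀, hK1, hK⟩ := two_wt (ω := ω) H a ha
  have hK0 : 0 ≤ K₀ := by linarith
  have hg0 : (0 : ℝ) ≤ Fintype.card γ := Nat.cast_nonneg _
  set c1 : ℝ := nn ω * a * ((a ^ 2) ^ 2 * (nn ω * K₀)) with hc1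
  set c3 : ℝ := Fintype.card γ * a with hc3
  set c2 : ℝ := a ^ 2 * (nn ω * K₀ * c3) with hc2
  have hc1p : 0 ≤ c1 := by positivity
  have hc3p : 0 ≤ c3 := by positivity
  have hc2p : 0 ≤ c2 := by positivity
  -- the constant of `ins`
  set e : ℝ := a + k0 ω C + c3 + c2 with he
  have hea : a ≤ e := by rw [he]; linarith
  have heb : k0 ω C ≤ e := by rw [he]; linarith
  have hec : c3 ≤ e := by rw [he]; linarith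
  have hed : c2 ≤ e := by rw [he]; linarith
  have he1 : 1 ≤ e := ha.trans hea
  have he0 : 0 ≤ e := by linarith
  have hw1 : 0 ≤ w1 ω C e := by rw [w1]; positivity
  set ci : ℝ := e * (e ^ 4 + e ^ 2) * w1 ω C e with hci
  have hci0 : 0 ≤ ci := by positivity
  set C₁ : ℝ := 1 + c1 + 2 * (a ^ 2 * c2) + ci with hC₁
  have hC₁1 : 1 ≤ C₁ := by
    have : 0 ≤ c1 + 2 * (a ^ 2 * c2) + ci := by positivity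
    linarith
  have hC₁b : c1 ≤ C₁ := by
    have : 0 ≤ 1 + 2 * (a ^ 2 * c2) + ci := by positivity
    rw [hC₁]; linarith
  have hC₁c : 2 * (a ^ 2 * c2) + ci ≤ C₁ := by rw [hC₁]; linarith
  obtain ⟨J₁, hJ₁⟩ : ∃ J₁ : ℕ, c2 < 2 ^ J₁ := pow_unbounded_of_one_lt c2 one_lt_two
  obtain ⟨CU, hCU0, hCU⟩ := unit (β := Ix ω) (γ := γ) cl hφ C₁ hC₁1
  refine ⟨CU * (J₁ + 2), by positivity, ?_⟩
  intro X Y _ s p Inc Pc Pp κ S n₀ n₀' n n' t A A' r ρ y₀ T Z E W F N D J hJ v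
  have hρn : 0 < ‖ρ‖ := norm_pos_iff.2 D.h0
  have hr0 := D.r0
  -- the conjugated matrices
  have hkz : ∀ k ∈ S, ∀ i j, ‖kz ρ (n k * n₀') i j‖ ≤ K₀ := fun k hk =>
    kz_le D.h0 (hK D.f0 (D.fk k hk) (D.ln y₀) hρn.le D.h1 D.y0 (D.yk k hk))
  have hkz' : ∀ k ∈ S, ∀ i j, ‖kz ρ (n₀ * n' k) i j‖ ≤ K₀ := fun k hk =>
    kz_le D.h0 (hK (D.fk k hk) D.f0 (D.ln y₀) hρn.le D.h1 (D.yk k hk) D.y0)
  have hkk : ∀ k ∈ S, kz ρ (n₀ * n' k) * kz ρ (n k * n₀') = 1 := by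
    intro k hk
    rw [kz_mul D.h0]
    have e1 : n₀ * n' k * (n k * n₀') = 1 := by
      rw [Matrix.mul_assoc, ← Matrix.mul_assoc (n' k), (D.fk k hk).l, Matrix.one_mul, D.f0.r]
    rw [e1, kz_one D.h0]
  -- the zoomed sections
  obtain ⟨q, c, hqm, hq⟩ := zsec hC D.f0 D.h0 D.h1 D.ms D.ns
  have hd1 : ∀ k ∈ S, ‖t k * ρ⁻¹‖ ≤ a ^ 2 := by
    intro k hk
    rw [norm_mul, norm_inv, mul_inv_le_iff₀ hρn]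
    calc ‖t k‖ ≤ a * r := D.tu k hk
      _ ≤ a * (a * ‖ρ‖) := mul_le_mul_of_nonneg_left D.rr ha0
      _ = _ := by ring
  set L : κ → (Ix ω → 𝕜) →ₗ[𝕜] (γ → 𝕜) := fun k => ll (A k) (t k * ρ⁻¹) (kz ρ (n k * n₀')) with hL
  have hmid : ∀ k x, kz ρ (n k * n₀') *ᵥ q x = c x • ((ρ ^ 2)⁻¹ • Dt ρ (n k *ᵥ s x)) := by
    intro k x
    rw [(hq x).2.2.1, gz, Matrix.mulVec_smul, Matrix.mulVec_smul, kz_mulVec D.h0, ← Matrix.mulVec_mulVec,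
      D.f0.kl]
  have hlow : ∀ k ∈ S, ∀ x, r ^ 2 ≤ ‖ρ‖ ^ 2 * (c2 * ‖L k (q x)‖) := by
    intro k hk x
    have hm0 : 0 < r / (a * ‖ρ‖) := by positivity
    have hm1 : r / (a * ‖ρ‖) ≤ 1 := by
      rw [div_le_one (by positivity)]; exact D.rr
    have hm2 : r / (a * ‖ρ‖) ≤ ‖t k * ρ⁻¹‖ := by
      rw [norm_mul, norm_inv, div_le_iff₀ (by positivity)]
      calc r ≤ a * ‖t k‖ := D.tl k hk
        _ = ‖t k‖ * ‖ρ‖⁻¹ * (a * ‖ρ‖) := by field_simp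
    have h1 := le_ll (A := A k) ha0 (D.aa k hk) (D.al2 k hk) hK0 (hkk k hk) (hkz' k hk) hm0 hm1
      hm2 (q x)
    rw [nrm_one (hq x).1, mul_one, div_pow, div_le_iff₀ (by positivity)] at h1
    calc r ^ 2 ≤ _ := h1
      _ = _ := by rw [hc2, hc3, hL]; ring
  have hlow1 : ∀ k ∈ S, ∀ x, r ^ 2 ≤ c2 * ‖L k (q x)‖ := by
    intro k hk x
    refine (hlow k hk x).trans ?_
    have h2 : 0 ≤ c2 * ‖L k (q x)‖ := by positivity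
    exact mul_le_of_le_one_left h2 (pow_le_one₀ hρn.le D.h1)
  have hlow2 : ∀ k ∈ S, ∀ x, (1 / 2) ^ (2 * J + J₁) ≤ ‖L k (q x)‖ := by
    intro k hk x
    exact low_le hJ hJ₁ (norm_nonneg _) (hlow1 k hk x)
  have hfin := hCU X q hqm (fun x => (hq x).1) Pp Pc D.pp D.pc κ S L ?_ (2 * J + J₁) ?_ E W F N D.n0 D.cap
    ?_ D.mf D.op Z ?_ v
  · refine hfin.trans ?_
    have hN := D.n0
    have h1 := cnt_le J J₁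
    have h2 : CU * (((2 * J + J₁ : ℕ) : ℝ) + 1) * N ≤ CU * (J₁ + 2) * (J + 1) * N := by
      calc CU * (((2 * J + J₁ : ℕ) : ℝ) + 1) * N ≤ CU * ((J₁ + 2) * (J + 1)) * N := by gcongr
        _ = _ := by ring
    exact mul_le_mul_of_nonneg_right (pow_le_pow_left₀ (by positivity) h2 2) (sq_nonneg _)
  · intro k hk w
    refine (ll_le ha0 (D.al1 k hk) hK0 (hkz k hk) (one_le_pow₀ ha) (hd1 k hk) w).trans ?_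
    exact mul_le_mul_of_nonneg_right hC₁b (norm_nonneg _)
  · intro k hk x
    exact hlow2 k hk x
  · intro k hk x
    have h1 : L k (q x) = (c x * (ρ ^ 2)⁻¹) • (A k *ᵥ Dt (t k) (n k *ᵥ s x)) := by
      rw [hL]
      simp only [ll_apply]
      rw [hmid, Dt_smul, Dt_smul, Dt_Dt, Matrix.mulVec_smul, Matrix.mulVec_smul, smul_smul]
      congr 4
      rw [mul_assoc, inv_mul_cancel₀ D.h0, mul_one]
    rw [D.ff k hk x, h1, hφ.1 _ _ (mul_ne_zero (hq x).2.1 (inv_ne_zero (pow_ne_zero 2 D.h0)))]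
  · -- insulation
    intro k hk A₀ D₀ hA₀ hD₀ hAD
    refine D.ch k hk A₀ D₀ hA₀ hD₀ ?_
    intro z hz x hx y hy hi₁ hi₂ hzn
    obtain ⟨P, Q, hPQ⟩ := hAD z hz x hx
    set Δ : ℝ := ‖L k (q x)‖ with hΔ
    have hΔ0 : 0 ≤ Δ := norm_nonneg _
    have hPQ' : C₁ * Δ < ‖mn (q z) (q x) P Q‖ := hPQ
    clear hPQ
    have hlw := hlow k hk x
    rw [← hΔ] at hlw
    have hmd := mid_le (A := A k) (d := t k * ρ⁻¹) (n := kz ρ (n k * n₀')) ha0 (D.aa k hk)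
      (D.al2 k hk) (q x)
    rw [← hc3] at hmd
    have h5 := qins H D.f0 ha D.h0 D.h1 (D.ln y) (D.tn y hy) (D.st k hk y hy) (D.ic z y hi₁)
      (D.ic x y hi₂) (D.ns z).1 (D.ns x).1 (hq z).2.2.1 (hq x).2.2.1 (hq z).1.1 (hq x).1.1
      (hq z).2.2.2 (hq x).2.2.2 hzn hmd hlw hΔ0 hea heb hec hed hc2p P Q
    have h6 : (2 * (a ^ 2 * c2) + e * (e ^ 4 + e ^ 2) * w1 ω C e) * Δ ≤ C₁ * Δ :=
      mul_le_mul_of_nonneg_right hC₁c hΔ0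
    exact absurd (hPQ'.trans_le h5) (not_lt.2 h6)

end

end Vale.Agent.P092.H464.QF
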