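import Vale.Agent.P092.H464.Q.Wt

/-!
P092, Track 3, COUNT_2 for forms of Witt index 2 (helper464): lines near the contracted plane of a
frame, closeness of two frames with a common near line.
-/

set_option linter.all false

namespace Vale.Agent.P092.H464.QF

open Finset Matrix
open Vale.Agent.P092.H464.PW (mulVec_le)
open Vale.Agent.P092.H589.K2 (Nrm)
open Vale.Agent.P092.H820 (wd)
open Vale.Agent.P092.H835.PlF (w3 Alt alt_wd)
open Vale.Agent.P092.H835.PlGr (w3_smul_left w3_add_left w3_wd_left w3_wd_right)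

section geo

variable {𝕜 : Type} [NontriviallyNormedField 𝕜] {ω : Type} [Fintype ω] [DecidableEq ω]
  {h : (Ix ω → 𝕜) → (Ix ω → 𝕜) → 𝕜} {C : ℝ} {κ κ' : Matrix (Ix ω) (Ix ω) 𝕜}
  {p : Ix ω × Ix ω → 𝕜}

lemma eb_apply (i j : Ix ω) : (eb i : Ix ω → 𝕜) j = if j = i then 1 else 0 := by
  rw [eb, Pi.single_apply]

lemma mul_eb (n : Matrix (Ix ω) (Ix ω) 𝕜) (i j : Ix ω) : (n *ᵥ eb j) i = n i j := by
  simp [eb, Matrix.mulVec_single]

/-- the line is near the contracted plane of the frame -/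
def Nr (κ : Matrix (Ix ω) (Ix ω) 𝕜) (p : Ix ω × Ix ω → 𝕜) (ε : ℝ) : Prop :=
  ∀ b j, ‖(κ *ᵥ row p j) (.inl (.inr b))‖ ≤ ε ^ 2

/-- constants -/
noncomputable def k0 (ω : Type) [Fintype ω] (C : ℝ) : ℝ := nn ω * C
noncomputable def k1 (ω : Type) [Fintype ω] (C : ℝ) : ℝ := 2 * C * k0 ω C
noncomputable def k2 (ω : Type) [Fintype ω] (C : ℝ) : ℝ := 2 * (k0 ω C ^ 3 * k1 ω C)
noncomputable def k3 (ω : Type) [Fintype ω] (C : ℝ) : ℝ := 2 * k0 ω C ^ 3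
noncomputable def k4 (ω : Type) [Fintype ω] (C : ℝ) : ℝ :=
  k1 ω C * k3 ω C + k0 ω C ^ 2 * (k1 ω C * k3 ω C)
noncomputable def k5 (ω : Type) [Fintype ω] (C : ℝ) : ℝ :=
  2 * k3 ω C + nn ω * (k0 ω C ^ 2 * (2 * k3 ω C) + C * k4 ω C * (k1 ω C * k3 ω C))

lemma k0_one (hC : 1 ≤ C) : 1 ≤ k0 ω C := by
  have := nn_one (ω := ω); rw [k0]; nlinarith

lemma k1_two (hC : 1 ≤ C) : 2 ≤ k1 ω C := by
  have := k0_one (ω := ω) hC; rw [k1]; nlinarith

lemma k3_one (hC : 1 ≤ C) : 1 ≤ k3 ω C := by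
  have h1 := k0_one (ω := ω) hC
  have : 1 ≤ k0 ω C ^ 3 := one_le_pow₀ h1
  rw [k3]; linarith

lemma k2_two (hC : 1 ≤ C) : 2 ≤ k2 ω C := by
  have h1 := k0_one (ω := ω) hC
  have h2 := k1_two (ω := ω) hC
  have : 1 ≤ k0 ω C ^ 3 := one_le_pow₀ h1
  rw [k2]; nlinarith

lemma k4_one (hC : 1 ≤ C) : 1 ≤ k4 ω C := by
  have h1 := k0_one (ω := ω) hC
  have h2 := k1_two (ω := ω) hC
  have h3 := k3_one (ω := ω) hC
  have : 1 ≤ k0 ω C ^ 2 := one_le_pow₀ h1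
  rw [k4]; nlinarith [mul_nonneg (by linarith : 0 ≤ k1 ω C) (by linarith : 0 ≤ k3 ω C)]

/-- the image of a line near the contracted plane -/
lemma bd (H : Sf h C) (F : Fr h C κ κ') (L : Ln h p) {ε : ℝ} (hε : 0 ≤ ε) (hn : Nr κ p ε)
    {x : Ix ω → 𝕜} (hx : w3 x p = 0) :
    Bd (κ *ᵥ x) (2 * ε ^ 2 * ‖x‖) (k1 ω C * ε * ‖x‖) (k0 ω C * ‖x‖) := by
  have hC := H.one
  have hC0 : 0 ≤ C := by linarith
  have h1 := k0_one (ω := ω) hC
  have hm : ∀ b, ‖(κ *ᵥ x) (.inl (.inr b))‖ ≤ 2 * ε ^ 2 * ‖x‖ := fun b =>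
    (L.fn_le (fun j => hn b j) hx).trans (le_of_eq (by ring))
  have hp : ∀ b, ‖(κ *ᵥ x) (.inl (.inl b))‖ ≤ k0 ω C * ‖x‖ := fun b =>
    (norm_le_pi_norm _ _).trans (F.mv hC0 x)
  refine ⟨hm, fun w => ?_, hp⟩
  have hxx : h (κ *ᵥ x) (κ *ᵥ x) = 0 := by rw [F.iso]; exact L.iso x x hx hx
  have h2 := H.an hxx hm hp w
  have hk : 0 ≤ k1 ω C := by have := k1_two (ω := ω) hC; linarith
  have h3 : ‖(κ *ᵥ x) (.inr w)‖ ^ 2 ≤ (k1 ω C * ε * ‖x‖) ^ 2 := by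
    refine h2.trans ?_
    have e : C * (2 * ε ^ 2 * ‖x‖ * (k0 ω C * ‖x‖)) = k1 ω C * (ε * ‖x‖) ^ 2 := by rw [k1]; ring
    rw [e]
    have h4 : k1 ω C ≤ k1 ω C ^ 2 := by have := k1_two (ω := ω) hC; nlinarith
    calc k1 ω C * (ε * ‖x‖) ^ 2 ≤ k1 ω C ^ 2 * (ε * ‖x‖) ^ 2 := by gcongr
      _ = _ := by ring
  exact (pow_le_pow_iff_left₀ (norm_nonneg _) (by positivity) two_ne_zero).1 h3

/-- combinations of the rows -/
def gr (κ : Matrix (Ix ω) (Ix ω) 𝕜) (p : Ix ω × Ix ω → 𝕜) (j : Ix ω) : Ix ω → 𝕜 :=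
  fun i => ∑ j', κ j j' * p (i, j')

lemma gr_wd (κ : Matrix (Ix ω) (Ix ω) 𝕜) (z y : Ix ω → 𝕜) (j : Ix ω) :
    gr κ (wd z y) j = (κ *ᵥ y) j • z - (κ *ᵥ z) j • y := by
  funext i
  simp only [gr, wd, Pi.sub_apply, Pi.smul_apply, smul_eq_mul, Matrix.mulVec, dotProduct,
    Finset.sum_mul, ← Finset.sum_sub_distrib]
  refine sum_congr rfl fun j' _ => ?_
  ring

lemma gr_w3 (L : Ln h p) (j : Ix ω) : w3 (gr κ p j) p = 0 := by
  obtain ⟨z, y, e⟩ := L.dec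
  rw [e, gr_wd, sub_eq_add_neg, ← neg_smul, w3_add_left, w3_smul_left, w3_smul_left, w3_wd_left,
    w3_wd_right, smul_zero, smul_zero, add_zero]

lemma gr_anti (L : Ln h p) (i j : Ix ω) : (κ *ᵥ gr κ p j) i = - (κ *ᵥ gr κ p i) j := by
  obtain ⟨z, y, e⟩ := L.dec
  rw [e, gr_wd, gr_wd]
  simp only [Matrix.mulVec_sub, Matrix.mulVec_smul, Pi.sub_apply, Pi.smul_apply, smul_eq_mul]
  ring

lemma gr_diag (L : Ln h p) (i : Ix ω) : (κ *ᵥ gr κ p i) i = 0 := by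
  obtain ⟨z, y, e⟩ := L.dec
  rw [e, gr_wd]
  simp only [Matrix.mulVec_sub, Matrix.mulVec_smul, Pi.sub_apply, Pi.smul_apply, smul_eq_mul]
  ring

lemma gr_le (F : Fr h C κ κ') (hC : 0 ≤ C) (L : Ln h p) (j : Ix ω) : ‖gr κ p j‖ ≤ k0 ω C := by
  have h0 : 0 ≤ k0 ω C := by rw [k0]; have := nn_one (ω := ω); positivity
  refine (pi_norm_le_iff_of_nonneg h0).2 fun i => ?_
  simp only [gr]
  refine (norm_sum_le _ _).trans ?_
  calc ∑ j', ‖κ j j' * p (i, j')‖ ≤ ∑ _j' : Ix ω, C * 1 := by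
        refine sum_le_sum fun j' _ => ?_
        rw [norm_mul]
        exact mul_le_mul (F.le j j') (L.le1 _) (norm_nonneg _) hC
    _ = _ := by rw [sum_const, card_univ, nsmul_eq_mul, k0, nn]; ring

lemma gr_back (F : Fr h C κ κ') (p : Ix ω × Ix ω → 𝕜) (i j : Ix ω) :
    p (i, j) = ∑ l, κ' j l * gr κ p l i := by
  have e : row (fun Q => p (Q.2, Q.1)) i = fun j' => p (i, j') := rfl
  have h1 := congrFun (F.kl fun j' => p (i, j')) j
  simp only [Matrix.mulVec, dotProduct] at h1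
  simp only [gr]
  exact h1.symm

/-- a basis of a line near the contracted plane -/
lemma graph (H : Sf h C) (F : Fr h C κ κ') (L : Ln h p) {ε : ℝ} (hε : 0 ≤ ε)
    (hs : k2 ω C * ε ≤ 1) (hn : Nr κ p ε) :
    ∃ x : Fin 2 → (Ix ω → 𝕜), ∀ b, w3 (x b) p = 0 ∧ ‖x b‖ ≤ k3 ω C ∧
      ∀ b', (κ *ᵥ x b) (.inl (.inl b')) = if b' = b then 1 else 0 := by
  have hC := H.one
  have hC0 : 0 ≤ C := by linarith
  have h0 := k0_one (ω := ω) hC
  have h1 := k1_two (ω := ω) hC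
  have h2 := k2_two (ω := ω) hC
  have hε1 : ε ≤ 1 := by nlinarith
  set q : Ix ω → Ix ω → 𝕜 := fun i j => (κ *ᵥ gr κ p j) i with hq
  set π := q (.inl (.inl 0)) (.inl (.inl 1)) with hπ
  have hbd : ∀ j, Bd (κ *ᵥ gr κ p j) (k0 ω C * (k1 ω C * ε)) (k0 ω C * (k1 ω C * ε))
      (k0 ω C * k0 ω C) := by
    intro j
    have hg := gr_le F hC0 L j
    refine (bd H F L hε hn (gr_w3 L j)).mono ?_ ?_ ?_
    · calc 2 * ε ^ 2 * ‖gr κ p j‖ ≤ (k1 ω C * ε) * k0 ω C := by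
            refine mul_le_mul ?_ hg (norm_nonneg _) (by positivity)
            nlinarith
        _ = _ := by ring
    · calc k1 ω C * ε * ‖gr κ p j‖ ≤ (k1 ω C * ε) * k0 ω C := by gcongr
        _ = _ := by ring
    · gcongr
  set m := k0 ω C * (k1 ω C * ε) with hm
  have hm0 : 0 ≤ m := by positivity
  have hqle : ∀ i j, ‖q i j‖ ≤ m + ‖π‖ := by
    have hπ0 : 0 ≤ ‖π‖ := norm_nonneg _
    intro i j
    rcases i with (b | b) | w
    · rcases j with (b' | b') | w'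
      · have hd : ∀ i, q i i = 0 := fun i => gr_diag L i
        have ha : ∀ i j, q i j = - q j i := fun i j => gr_anti L i j
        fin_cases b <;> fin_cases b'
        · simp only [Fin.zero_eta]; rw [hd, norm_zero]; positivity
        · simp only [Fin.zero_eta, Fin.mk_one]; linarith
        · simp only [Fin.zero_eta, Fin.mk_one]; rw [ha, norm_neg]; linarith
        · simp only [Fin.mk_one]; rw [hd, norm_zero]; positivity
      · have e : q (.inl (.inl b)) (.inl (.inr b')) = - q (.inl (.inr b')) (.inl (.inl b)) :=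
          gr_anti L _ _
        rw [e, norm_neg]
        exact ((hbd _).m b').trans (by linarith)
      · have e : q (.inl (.inl b)) (.inr w') = - q (.inr w') (.inl (.inl b)) := gr_anti L _ _
        rw [e, norm_neg]
        exact ((hbd _).w w').trans (by linarith)
    · exact ((hbd _).m b).trans (by linarith)
    · exact ((hbd _).w w).trans (by linarith)
  have hgle : ∀ j, ‖gr κ p j‖ ≤ k0 ω C * (m + ‖π‖) := by
    intro j
    have e := F.kl (gr κ p j)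
    have h3 : ‖κ *ᵥ gr κ p j‖ ≤ m + ‖π‖ :=
      (pi_norm_le_iff_of_nonneg (by positivity)).2 fun i => hqle i j
    calc ‖gr κ p j‖ = ‖κ' *ᵥ (κ *ᵥ gr κ p j)‖ := by rw [e]
      _ ≤ nn ω * C * ‖κ *ᵥ gr κ p j‖ := F.mv' hC0 _
      _ ≤ nn ω * C * (m + ‖π‖) := by
          have := nn_one (ω := ω)
          gcongr
  have hlow : 1 ≤ k0 ω C * (k0 ω C * (m + ‖π‖)) := by
    obtain ⟨_, ⟨a, b⟩, hP⟩ := L.nrm
    have e := gr_back F p a b
    rw [hP] at e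
    have h3 : ‖(1 : 𝕜)‖ ≤ ∑ l, ‖κ' b l * gr κ p l a‖ := by rw [e]; exact norm_sum_le _ _
    rw [norm_one] at h3
    refine h3.trans ?_
    calc ∑ l, ‖κ' b l * gr κ p l a‖ ≤ ∑ _l : Ix ω, C * (k0 ω C * (m + ‖π‖)) := by
          refine sum_le_sum fun l _ => ?_
          rw [norm_mul]
          exact mul_le_mul (F.le' b l) ((norm_le_pi_norm _ _).trans (hgle l)) (norm_nonneg _) hC0
      _ = _ := by rw [sum_const, card_univ, nsmul_eq_mul]; rw [k0, nn]; ring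
  have hπl : 1 ≤ 2 * k0 ω C ^ 2 * ‖π‖ := by
    have e : k0 ω C * (k0 ω C * (m + ‖π‖)) = k0 ω C ^ 3 * k1 ω C * ε + k0 ω C ^ 2 * ‖π‖ := by
      rw [hm]; ring
    rw [e] at hlow
    have e2 : k2 ω C * ε = 2 * (k0 ω C ^ 3 * k1 ω C * ε) := by rw [k2]; ring
    rw [e2] at hs
    linarith
  have hπ0 : π ≠ 0 := by
    intro h3
    rw [h3, norm_zero, mul_zero] at hπl
    linarith
  have hinv : ‖π⁻¹‖ ≤ 2 * k0 ω C ^ 2 := by
    rw [norm_inv, inv_le_iff_one_le_mul₀ (norm_pos_iff.2 hπ0)]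
    exact hπl
  have hxle : ∀ j, ‖π⁻¹ • gr κ p j‖ ≤ k3 ω C := by
    intro j
    rw [norm_smul]
    calc ‖π⁻¹‖ * ‖gr κ p j‖ ≤ (2 * k0 ω C ^ 2) * k0 ω C :=
          mul_le_mul hinv (gr_le F hC0 L j) (norm_nonneg _) (by positivity)
      _ = _ := by rw [k3]; ring
  have key : ∀ b : Fin 2, ∃ x, w3 x p = 0 ∧ ‖x‖ ≤ k3 ω C ∧
      ∀ b', (κ *ᵥ x) (.inl (.inl b')) = if b' = b then 1 else 0 := by
    intro b
    fin_cases b
    · refine ⟨π⁻¹ • gr κ p (.inl (.inl 1)), ?_, hxle _, fun b' => ?_⟩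
      · rw [w3_smul_left, gr_w3 L, smul_zero]
      · rw [Matrix.mulVec_smul, Pi.smul_apply, smul_eq_mul]
        fin_cases b'
        · simp only [Fin.zero_eta, if_true]
          exact inv_mul_cancel₀ hπ0
        · simp only [Fin.mk_one, Fin.zero_eta]
          rw [gr_diag L, mul_zero, if_neg (by decide)]
    · refine ⟨(- π⁻¹) • gr κ p (.inl (.inl 0)), ?_, ?_, fun b' => ?_⟩
      · rw [w3_smul_left, gr_w3 L, smul_zero]
      · rw [neg_smul, norm_neg]; exact hxle _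
      · rw [Matrix.mulVec_smul, Pi.smul_apply, smul_eq_mul]
        fin_cases b'
        · simp only [Fin.zero_eta, Fin.mk_one]
          rw [gr_diag L, mul_zero, if_neg (by decide)]
        · simp only [Fin.mk_one, if_true]
          rw [gr_anti L]
          change -π⁻¹ * -π = 1
          rw [neg_mul_neg]
          exact inv_mul_cancel₀ hπ0
  choose x hx using key
  exact ⟨x, hx⟩

/-- the deviation of the basis from the contracted plane -/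
lemma graph_bd (H : Sf h C) (F : Fr h C κ κ') (L : Ln h p) {ε : ℝ} (hε : 0 ≤ ε) (hn : Nr κ p ε)
    {x : Ix ω → 𝕜} (hx : w3 x p = 0) (hx3 : ‖x‖ ≤ k3 ω C) {b : Fin 2}
    (hb : ∀ b', (κ *ᵥ x) (.inl (.inl b')) = if b' = b then 1 else 0) :
    Bd (κ *ᵥ x - eb (.inl (.inl b))) (2 * ε ^ 2 * k3 ω C) (k1 ω C * ε * k3 ω C) 0 := by
  have hC := H.one
  have h1 := k1_two (ω := ω) hC
  have h3 := bd H F L hε hn hx
  refine ⟨fun b' => ?_, fun w => ?_, fun b' => ?_⟩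
  · rw [Pi.sub_apply, eb_apply, if_neg (by simp), sub_zero]
    refine (h3.m b').trans ?_
    gcongr
  · rw [Pi.sub_apply, eb_apply, if_neg (by simp), sub_zero]
    refine (h3.w w).trans ?_
    gcongr
  · rw [Pi.sub_apply, eb_apply, hb]
    have e : (if (Sum.inl (Sum.inl b') : Ix ω) = Sum.inl (Sum.inl b) then (1 : 𝕜) else 0) =
        if b' = b then 1 else 0 := by
      by_cases hbb : b' = b
      · rw [if_pos hbb, if_pos (by rw [hbb])]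
      · rw [if_neg hbb, if_neg (fun h => hbb (by simpa using h))]
    rw [e, sub_self, norm_zero]

end geo

section close

variable {𝕜 : Type} [NontriviallyNormedField 𝕜] {ω : Type} [Fintype ω] [DecidableEq ω]
  {h : (Ix ω → 𝕜) → (Ix ω → 𝕜) → 𝕜} {C : ℝ} {κ₁ κ₁' κ₂ κ₂' : Matrix (Ix ω) (Ix ω) 𝕜}
  {p : Ix ω × Ix ω → 𝕜}

lemma two_iso (F₁ : Fr h C κ₁ κ₁') (F₂ : Fr h C κ₂ κ₂') (x y : Ix ω → 𝕜) :
    h ((κ₂ * κ₁') *ᵥ x) ((κ₂ * κ₁') *ᵥ y) = h x y := by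
  rw [← Matrix.mulVec_mulVec, ← Matrix.mulVec_mulVec, F₂.iso, F₁.swap.iso]

lemma two_mv (hC : 0 ≤ C) (F₁ : Fr h C κ₁ κ₁') (F₂ : Fr h C κ₂ κ₂') (x : Ix ω → 𝕜) :
    ‖(κ₂ * κ₁') *ᵥ x‖ ≤ k0 ω C ^ 2 * ‖x‖ := by
  rw [← Matrix.mulVec_mulVec]
  have h1 := F₂.mv hC (κ₁' *ᵥ x)
  have h2 := F₁.mv' hC x
  have h0 : 0 ≤ nn ω * C := by have := nn_one (ω := ω); positivity
  calc _ ≤ nn ω * C * (nn ω * C * ‖x‖) := h1.trans (by gcongr)
    _ = _ := by rw [k0]; ring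

lemma eb_le (i : Ix ω) : ‖(eb i : Ix ω → 𝕜)‖ ≤ 1 := by
  refine (pi_norm_le_iff_of_nonneg zero_le_one).2 fun j => ?_
  rw [eb_apply]; split_ifs
  · rw [norm_one]
  · rw [norm_zero]; exact zero_le_one

lemma two_le' (hC : 0 ≤ C) (F₁ : Fr h C κ₁ κ₁') (F₂ : Fr h C κ₂ κ₂') (i j : Ix ω) :
    ‖(κ₂ * κ₁') i j‖ ≤ k0 ω C ^ 2 := by
  rw [← mul_eb (κ₂ * κ₁') i j]
  refine (norm_le_pi_norm _ i).trans ((two_mv hC F₁ F₂ _).trans ?_)
  have h0 : 0 ≤ k0 ω C ^ 2 := sq_nonneg _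
  calc k0 ω C ^ 2 * ‖(eb j : Ix ω → 𝕜)‖ ≤ k0 ω C ^ 2 * 1 :=
        mul_le_mul_of_nonneg_left (eb_le j) h0
    _ = _ := mul_one _

/-- first entries -/
lemma two_w (H : Sf h C) (F₁ : Fr h C κ₁ κ₁') (F₂ : Fr h C κ₂ κ₂') (L : Ln h p) {ε : ℝ}
    (hε : 0 ≤ ε) (hs : k2 ω C * ε ≤ 1) (hn₁ : Nr κ₁ p ε) (hn₂ : Nr κ₂ p ε) (w : ω) (b : Fin 2) :
    ‖(κ₂ * κ₁') (.inr w) (.inl (.inl b))‖ ≤ k4 ω C * ε := by
  have hC := H.one
  have hC0 : 0 ≤ C := by linarith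
  have h0 := k0_one (ω := ω) hC
  have h1 := k1_two (ω := ω) hC
  have h2 := k2_two (ω := ω) hC
  have h3 := k3_one (ω := ω) hC
  have hε1 : ε ≤ 1 := by nlinarith
  obtain ⟨x, hx⟩ := graph H F₁ L hε hs hn₁
  obtain ⟨hx1, hx2, hx3⟩ := hx b
  have hd := graph_bd H F₁ L hε hn₁ hx1 hx2 hx3
  set d := κ₁ *ᵥ x b - eb (.inl (.inl b)) with hdd
  have hdn : ‖d‖ ≤ k1 ω C * ε * k3 ω C := by
    refine hd.norm_le (by positivity) ?_ le_rfl (by positivity)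
    have : 2 * ε ^ 2 ≤ k1 ω C * ε := by nlinarith
    gcongr
  have e : (κ₂ * κ₁') *ᵥ eb (.inl (.inl b)) = κ₂ *ᵥ x b - (κ₂ * κ₁') *ᵥ d := by
    have e0 : (κ₂ * κ₁') *ᵥ (κ₁ *ᵥ x b) = κ₂ *ᵥ x b := by
      rw [← Matrix.mulVec_mulVec, F₁.kl]
    rw [hdd, Matrix.mulVec_sub, e0]
    abel
  rw [← mul_eb (κ₂ * κ₁') (.inr w) (.inl (.inl b)), e, Pi.sub_apply]
  refine (norm_sub_le _ _).trans ?_
  have g1 := (bd H F₂ L hε hn₂ hx1).w w
  have g2 := (norm_le_pi_norm ((κ₂ * κ₁') *ᵥ d) (.inr w)).trans (two_mv hC0 F₁ F₂ d)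
  calc _ ≤ k1 ω C * ε * k3 ω C + k0 ω C ^ 2 * (k1 ω C * ε * k3 ω C) := by
        refine add_le_add (g1.trans ?_) (g2.trans ?_)
        · gcongr
        · gcongr
    _ = _ := by rw [k4]; ring

/-- **closeness of two frames with a common near line** -/
theorem two_close (H : Sf h C) (F₁ : Fr h C κ₁ κ₁') (F₂ : Fr h C κ₂ κ₂') (L : Ln h p) {ε : ℝ}
    (hε : 0 ≤ ε) (hs : k2 ω C * ε ≤ 1) (hn₁ : Nr κ₁ p ε) (hn₂ : Nr κ₂ p ε) :
    (∀ w b, ‖(κ₂ * κ₁') (.inr w) (.inl (.inl b))‖ ≤ k4 ω C * ε) ∧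
    (∀ b w, ‖(κ₂ * κ₁') (.inl (.inr b)) (.inr w)‖ ≤ C * k4 ω C * ε) ∧
    ∀ b' b, ‖(κ₂ * κ₁') (.inl (.inr b')) (.inl (.inl b))‖ ≤ k5 ω C * ε ^ 2 := by
  have hC := H.one
  have hC0 : 0 ≤ C := by linarith
  have h0 := k0_one (ω := ω) hC
  have h1 := k1_two (ω := ω) hC
  have h2 := k2_two (ω := ω) hC
  have h3 := k3_one (ω := ω) hC
  have h4 := k4_one (ω := ω) hC
  have hε1 : ε ≤ 1 := by nlinarith
  have A := two_w H F₁ F₂ L hε hs hn₁ hn₂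
  have A' := two_w H F₂ F₁ L hε hs hn₂ hn₁
  have B : ∀ b w, ‖(κ₂ * κ₁') (.inl (.inr b)) (.inr w)‖ ≤ C * k4 ω C * ε := by
    intro b w
    rw [← mul_eb (κ₂ * κ₁') (.inl (.inr b)) (.inr w), ← H.dual]
    have e : (eb (.inl (.inl b)) : Ix ω → 𝕜) =
        (κ₂ * κ₁') *ᵥ ((κ₁ * κ₂') *ᵥ eb (.inl (.inl b))) := by
      rw [Matrix.mulVec_mulVec, Matrix.mul_assoc, ← Matrix.mul_assoc κ₁', F₁.l, Matrix.one_mul,
        F₂.r, Matrix.one_mulVec]
    rw [e, two_iso F₁ F₂]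
    have b1 : Bd (eb (.inr w) : Ix ω → 𝕜) 0 1 0 :=
      ⟨fun b' => by rw [eb_apply, if_neg (by simp), norm_zero],
        fun w' => (norm_le_pi_norm _ _).trans (eb_le _),
        fun b' => by rw [eb_apply, if_neg (by simp), norm_zero]⟩
    set f := (κ₁ * κ₂') *ᵥ (eb (.inl (.inl b)) : Ix ω → 𝕜) with hf
    have b2 : Bd f ‖f‖ (k4 ω C * ε) ‖f‖ :=
      ⟨fun _ => norm_le_pi_norm _ _, fun w' => by rw [hf, mul_eb]; exact A' w' b,
        fun _ => norm_le_pi_norm _ _⟩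
    refine (H.le3 zero_le_one (by positivity) b1 b2).trans (le_of_eq ?_)
    ring
  refine ⟨A, B, fun b' b => ?_⟩
  obtain ⟨x, hx⟩ := graph H F₁ L hε hs hn₁
  obtain ⟨hx1, hx2, hx3⟩ := hx b
  have hd := graph_bd H F₁ L hε hn₁ hx1 hx2 hx3
  set d := κ₁ *ᵥ x b - eb (.inl (.inl b)) with hdd
  have e : (κ₂ * κ₁') *ᵥ eb (.inl (.inl b)) = κ₂ *ᵥ x b - (κ₂ * κ₁') *ᵥ d := by
    have e0 : (κ₂ * κ₁') *ᵥ (κ₁ *ᵥ x b) = κ₂ *ᵥ x b := by
      rw [← Matrix.mulVec_mulVec, F₁.kl]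
    rw [hdd, Matrix.mulVec_sub, e0]
    abel
  rw [← mul_eb (κ₂ * κ₁') (.inl (.inr b')) (.inl (.inl b)), e, Pi.sub_apply]
  refine (norm_sub_le _ _).trans ?_
  have g1 := (bd H F₂ L hε hn₂ hx1).m b'
  have g2 : ‖((κ₂ * κ₁') *ᵥ d) (.inl (.inr b'))‖ ≤
      nn ω * (k0 ω C ^ 2 * (2 * ε ^ 2 * k3 ω C) + C * k4 ω C * ε * (k1 ω C * ε * k3 ω C)) := by
    rw [Matrix.mulVec, dotProduct]
    refine (norm_sum_le _ _).trans ?_
    calc ∑ j, ‖(κ₂ * κ₁') (.inl (.inr b')) j * d j‖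
        ≤ ∑ _j : Ix ω, (k0 ω C ^ 2 * (2 * ε ^ 2 * k3 ω C) +
          C * k4 ω C * ε * (k1 ω C * ε * k3 ω C)) := by
          refine sum_le_sum fun j _ => ?_
          rw [norm_mul]
          rcases j with (j | j) | j
          · have := hd.p j
            have h5 : ‖d (.inl (.inl j))‖ = 0 := le_antisymm this (norm_nonneg _)
            rw [h5, mul_zero]
            positivity
          · have := mul_le_mul (two_le' hC0 F₁ F₂ (.inl (.inr b')) (.inl (.inr j))) (hd.m j)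
              (norm_nonneg _) (by positivity)
            refine this.trans (le_add_of_nonneg_right (by positivity))
          · have := mul_le_mul (B b' j) (hd.w j) (norm_nonneg _) (by positivity)
            refine this.trans (le_add_of_nonneg_left (by positivity))
      _ = _ := by rw [sum_const, card_univ, nsmul_eq_mul, nn]
  calc _ ≤ 2 * ε ^ 2 * k3 ω C + nn ω * (k0 ω C ^ 2 * (2 * ε ^ 2 * k3 ω C) +
        C * k4 ω C * ε * (k1 ω C * ε * k3 ω C)) := by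
        refine add_le_add (g1.trans ?_) g2
        gcongr
    _ = _ := by rw [k5]; ring

/-- the same in the form of weights -/
theorem two_wt (H : Sf h C) (a : ℝ) (ha : 1 ≤ a) : ∃ K : ℝ, 1 ≤ K ∧ ∀
    {κ₁ κ₁' κ₂ κ₂' : Matrix (Ix ω) (Ix ω) 𝕜} {p : Ix ω × Ix ω → 𝕜}, Fr h C κ₁ κ₁' →
    Fr h C κ₂ κ₂' → Ln h p → ∀ {δ : ℝ}, 0 ≤ δ → δ ≤ 1 → Nr κ₁ p (a * δ) → Nr κ₂ p (a * δ) →
    ∀ i j, δ ^ wt i * ‖(κ₂ * κ₁') i j‖ ≤ K * δ ^ wt j := by
  have hC := H.one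
  have hC0 : 0 ≤ C := by linarith
  have h0 := k0_one (ω := ω) hC
  have h1 := k1_two (ω := ω) hC
  have h2 := k2_two (ω := ω) hC
  have h3 := k3_one (ω := ω) hC
  have h4 := k4_one (ω := ω) hC
  have h5 : 0 ≤ k5 ω C := by
    have := nn_one (ω := ω)
    rw [k5]; positivity
  have ha0 : 0 ≤ a := by linarith
  set K : ℝ := k0 ω C ^ 2 * (k2 ω C * a) ^ 2 + C * k4 ω C * a + k5 ω C * a ^ 2 with hK
  have hKa : k0 ω C ^ 2 * (k2 ω C * a) ^ 2 ≤ K := by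
    have : 0 ≤ C * k4 ω C * a + k5 ω C * a ^ 2 := by positivity
    linarith
  have hKb : C * k4 ω C * a ≤ K := by
    have : 0 ≤ k0 ω C ^ 2 * (k2 ω C * a) ^ 2 + k5 ω C * a ^ 2 := by positivity
    linarith
  have hKb' : k4 ω C * a ≤ K := by
    have : k4 ω C * a ≤ C * k4 ω C * a := by
      have : 0 ≤ k4 ω C * a := by positivity
      nlinarith
    linarith
  have hKc : k5 ω C * a ^ 2 ≤ K := by
    have : 0 ≤ k0 ω C ^ 2 * (k2 ω C * a) ^ 2 + C * k4 ω C * a := by positivity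
    linarith
  have hka1 : 1 ≤ k2 ω C * a := by nlinarith
  have hKd : k0 ω C ^ 2 ≤ K := by
    refine le_trans ?_ hKa
    have : 1 ≤ (k2 ω C * a) ^ 2 := one_le_pow₀ hka1
    nlinarith [sq_nonneg (k0 ω C)]
  have hK1 : 1 ≤ K := le_trans (one_le_pow₀ h0) hKd
  refine ⟨K, hK1, ?_⟩
  intro κ₁ κ₁' κ₂ κ₂' p F₁ F₂ L δ hδ hδ1 hn₁ hn₂ i j
  have hK0 : 0 ≤ K := by linarith
  have hgen : ∀ i j, ‖(κ₂ * κ₁') i j‖ ≤ k0 ω C ^ 2 := two_le' hC0 F₁ F₂
  have hδi : ∀ i : Ix ω, δ ^ wt i ≤ 1 := fun i => pow_le_one₀ hδ hδ1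
  by_cases hsm : k2 ω C * (a * δ) ≤ 1
  · obtain ⟨A, B, D⟩ := two_close H F₁ F₂ L (by positivity) hsm hn₁ hn₂
    by_cases hij : wt j ≤ wt i
    · have e : δ ^ wt i ≤ δ ^ wt j := pow_le_pow_of_le_one hδ hδ1 hij
      calc δ ^ wt i * ‖(κ₂ * κ₁') i j‖ ≤ δ ^ wt j * K :=
            mul_le_mul e ((hgen i j).trans hKd) (norm_nonneg _) (by positivity)
        _ = _ := mul_comm _ _
    · push Not at hij
      rcases i with (i | i) | i
      · have := wt_le j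
        simp only [wt_p] at hij
        omega
      · rcases j with (j | j) | j
        · simp only [wt_m, wt_p, pow_zero, one_mul]
          refine (D i j).trans ?_
          calc k5 ω C * (a * δ) ^ 2 = k5 ω C * a ^ 2 * δ ^ 2 := by ring
            _ ≤ _ := by gcongr
        · simp at hij
        · simp only [wt_m, wt_w, pow_zero, one_mul, pow_one]
          refine (B i j).trans ?_
          calc C * k4 ω C * (a * δ) = C * k4 ω C * a * δ := by ring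
            _ ≤ _ := by gcongr
      · rcases j with (j | j) | j
        · simp only [wt_w, wt_p, pow_one]
          calc δ * ‖(κ₂ * κ₁') (.inr i) (.inl (.inl j))‖ ≤ δ * (k4 ω C * (a * δ)) := by
                gcongr; exact A i j
            _ = k4 ω C * a * δ ^ 2 := by ring
            _ ≤ _ := by gcongr
        · simp at hij
        · simp at hij
  · push Not at hsm
    have hd : 1 ≤ (k2 ω C * a) ^ 2 * δ ^ 2 := by
      have : 1 ≤ (k2 ω C * (a * δ)) ^ 2 := one_le_pow₀ hsm.le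
      calc (1 : ℝ) ≤ (k2 ω C * (a * δ)) ^ 2 := this
        _ = _ := by ring
    have e2 : δ ^ 2 ≤ δ ^ wt j := pow_le_pow_of_le_one hδ hδ1 (wt_le j)
    calc δ ^ wt i * ‖(κ₂ * κ₁') i j‖ ≤ 1 * k0 ω C ^ 2 :=
          mul_le_mul (hδi i) (hgen i j) (norm_nonneg _) zero_le_one
      _ = k0 ω C ^ 2 * 1 := by ring
      _ ≤ k0 ω C ^ 2 * ((k2 ω C * a) ^ 2 * δ ^ 2) := by gcongr
      _ = k0 ω C ^ 2 * (k2 ω C * a) ^ 2 * δ ^ 2 := by ring
      _ ≤ K * δ ^ wt j := by gcongr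

end close

end Vale.Agent.P092.H464.QF
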