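import Vale.Agent.P092.H464.Q.Geo

/-!
P092, Track 3, COUNT_2 for forms of Witt index 2 (helper464): exact insulation.
-/

set_option linter.all false

namespace Vale.Agent.P092.H464.QF

open Finset Matrix
open Vale.Agent.P092.H464.PW (mulVec_le)
open Vale.Agent.P092.H589.K2 (Nrm)
open Vale.Agent.P092.H820 (wd)
open Vale.Agent.P092.H835.PlF (w3 Alt alt_wd)

section

variable {𝕜 : Type} [NontriviallyNormedField 𝕜] {ω : Type} [Fintype ω] [DecidableEq ω]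
  {h : (Ix ω → 𝕜) → (Ix ω → 𝕜) → 𝕜} {C : ℝ} {κ κ' κ₀ κ₀' : Matrix (Ix ω) (Ix ω) 𝕜}
  {p : Ix ω × Ix ω → 𝕜}

/-- two vectors of a line -/
lemma wd_line (L : Ln h p) {z x : Ix ω → 𝕜} (hz : w3 z p = 0) (hx : w3 x p = 0) :
    ∃ θ : 𝕜, wd z x = θ • p := by
  obtain ⟨_, ⟨a, b⟩, hP⟩ := L.nrm
  obtain ⟨u, v, e⟩ := L.dec
  have hz' : ∀ i, z i = z a * p (i, b) - z b * p (i, a) := by
    intro i
    have := congrFun hz (i, (a, b))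
    simp only [w3, Pi.zero_apply, hP] at this
    linear_combination this
  have hx' : ∀ i, x i = x a * p (i, b) - x b * p (i, a) := by
    intro i
    have := congrFun hx (i, (a, b))
    simp only [w3, Pi.zero_apply, hP] at this
    linear_combination this
  refine ⟨z a * x b - z b * x a, ?_⟩
  funext Q
  obtain ⟨i, j⟩ := Q
  have key : p (i, a) * p (j, b) - p (i, b) * p (j, a) = p (i, j) * p (a, b) := by
    rw [e]; simp only [wd]; ring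
  rw [hP, mul_one] at key
  have e1 : wd z x (i, j) = z i * x j - z j * x i := by simp only [wd]
  rw [e1, Pi.smul_apply, smul_eq_mul, hz' i, hz' j, hx' i, hx' j, ← key]
  ring

/-- the Pluecker coordinates in a frame -/
def ph (κ : Matrix (Ix ω) (Ix ω) 𝕜) (p : Ix ω × Ix ω → 𝕜) (i j : Ix ω) : 𝕜 := (κ *ᵥ gr κ p j) i

lemma ph_wd (κ : Matrix (Ix ω) (Ix ω) 𝕜) (z y : Ix ω → 𝕜) (i j : Ix ω) :
    ph κ (wd z y) i j = (κ *ᵥ z) i * (κ *ᵥ y) j - (κ *ᵥ z) j * (κ *ᵥ y) i := by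
  rw [ph, gr_wd]
  simp only [Matrix.mulVec_sub, Matrix.mulVec_smul, Pi.sub_apply, Pi.smul_apply, smul_eq_mul]
  ring

lemma ph_smul (κ : Matrix (Ix ω) (Ix ω) 𝕜) (c : 𝕜) (p : Ix ω × Ix ω → 𝕜) (i j : Ix ω) :
    ph κ (c • p) i j = c * ph κ p i j := by
  have e : gr κ (c • p) j = c • gr κ p j := by
    funext i
    simp only [gr, Pi.smul_apply, smul_eq_mul, mul_sum]
    exact sum_congr rfl fun _ _ => by ring
  rw [ph, e, Matrix.mulVec_smul, Pi.smul_apply, smul_eq_mul]; rfl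

lemma ph_le (F : Fr h C κ κ') (hC : 0 ≤ C) (L : Ln h p) (i j : Ix ω) :
    ‖ph κ p i j‖ ≤ k0 ω C ^ 2 := by
  have h1 := F.mv hC (gr κ p j)
  have h2 := gr_le F hC L j
  have h0 : 0 ≤ nn ω * C := by have := nn_one (ω := ω); positivity
  have h3 : ‖(κ *ᵥ gr κ p j) i‖ ≤ nn ω * C * k0 ω C :=
    (norm_le_pi_norm (κ *ᵥ gr κ p j) i).trans (h1.trans (mul_le_mul_of_nonneg_left h2 h0))
  rw [ph]
  refine h3.trans (le_of_eq ?_)
  rw [k0]; ring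

/-- the constant of `pw` -/
noncomputable def w0 (ω : Type) [Fintype ω] (C a : ℝ) : ℝ :=
  k0 ω C * k3 ω C + k1 ω C * a * k3 ω C + 2 * a ^ 2 * k3 ω C
noncomputable def w1 (ω : Type) [Fintype ω] (C a : ℝ) : ℝ :=
  k0 ω C ^ 2 * (2 * w0 ω C a ^ 2 + (k2 ω C * a) ^ 4)

/-- weighted bounds for the Pluecker coordinates of a line near a frame -/
lemma pw (H : Sf h C) (F : Fr h C κ κ') (L : Ln h p) {a δ : ℝ} (ha : 1 ≤ a) (hδ : 0 ≤ δ)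
    (hδ1 : δ ≤ 1) (hn : Nr κ p (a * δ)) (i j : Ix ω) :
    δ ^ wt i * δ ^ wt j * ‖ph κ p i j‖ ≤ w1 ω C a * δ ^ 4 := by
  have hC := H.one
  have hC0 : 0 ≤ C := by linarith
  have h0 := k0_one (ω := ω) hC
  have h1 := k1_two (ω := ω) hC
  have h2 := k2_two (ω := ω) hC
  have h3 := k3_one (ω := ω) hC
  have hδi : ∀ i : Ix ω, δ ^ wt i ≤ 1 := fun i => pow_le_one₀ hδ hδ1
  have hw0 : 0 ≤ w0 ω C a := by rw [w0]; positivity
  by_cases hsm : k2 ω C * (a * δ) ≤ 1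
  · obtain ⟨x, hx⟩ := graph H F L (by positivity) hsm hn
    obtain ⟨hx01, hx02, hx03⟩ := hx 0
    obtain ⟨hx11, hx12, hx13⟩ := hx 1
    obtain ⟨θ, hθ⟩ := wd_line L hx01 hx11
    set π := ph κ p (.inl (.inl 0)) (.inl (.inl 1)) with hπ
    have hθπ : θ * π = 1 := by
      rw [hπ, ← ph_smul, ← hθ, ph_wd, hx03, hx13, hx03, hx13]
      simp
    have hp : ∀ i j, ph κ p i j = π * ((κ *ᵥ x 0) i * (κ *ᵥ x 1) j -
        (κ *ᵥ x 0) j * (κ *ᵥ x 1) i) := by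
      intro i j
      rw [← ph_wd, hθ, ph_smul, ← mul_assoc, mul_comm π θ, hθπ, one_mul]
    have hb : ∀ (b : Fin 2) i, δ ^ wt i * ‖(κ *ᵥ x b) i‖ ≤ w0 ω C a * δ ^ 2 := by
      intro b i
      obtain ⟨hb1, hb2, hb3⟩ := hx b
      have hB := bd H F L (by positivity) hn hb1
      rcases i with (c | c) | c
      · have := hB.p c
        simp only [wt_p]
        calc δ ^ 2 * ‖(κ *ᵥ x b) (.inl (.inl c))‖ ≤ δ ^ 2 * (k0 ω C * k3 ω C) := by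
              gcongr; exact this.trans (by gcongr)
          _ = (k0 ω C * k3 ω C) * δ ^ 2 := by ring
          _ ≤ _ := by
              gcongr
              have : 0 ≤ k1 ω C * a * k3 ω C + 2 * a ^ 2 * k3 ω C := by positivity
              rw [w0]; linarith
      · have := hB.m c
        simp only [wt_m, pow_zero, one_mul]
        calc ‖(κ *ᵥ x b) (.inl (.inr c))‖ ≤ 2 * (a * δ) ^ 2 * k3 ω C :=
              this.trans (by gcongr)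
          _ = (2 * a ^ 2 * k3 ω C) * δ ^ 2 := by ring
          _ ≤ _ := by
              gcongr
              have : 0 ≤ k0 ω C * k3 ω C + k1 ω C * a * k3 ω C := by positivity
              rw [w0]; linarith
      · have := hB.w c
        simp only [wt_w, pow_one]
        calc δ * ‖(κ *ᵥ x b) (.inr c)‖ ≤ δ * (k1 ω C * (a * δ) * k3 ω C) := by
              gcongr; exact this.trans (by gcongr)
          _ = (k1 ω C * a * k3 ω C) * δ ^ 2 := by ring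
          _ ≤ _ := by
              gcongr
              have : 0 ≤ k0 ω C * k3 ω C + 2 * a ^ 2 * k3 ω C := by positivity
              rw [w0]; linarith
    rw [hp, norm_mul]
    have hπ1 : ‖π‖ ≤ k0 ω C ^ 2 := ph_le F hC0 L _ _
    have t : ∀ i j, δ ^ wt i * δ ^ wt j * ‖(κ *ᵥ x 0) i * (κ *ᵥ x 1) j‖ ≤
        w0 ω C a ^ 2 * δ ^ 4 := by
      intro i j
      rw [norm_mul]
      have := mul_le_mul (hb 0 i) (hb 1 j) (by positivity) (by positivity)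
      calc _ = (δ ^ wt i * ‖(κ *ᵥ x 0) i‖) * (δ ^ wt j * ‖(κ *ᵥ x 1) j‖) := by ring
        _ ≤ _ := this
        _ = _ := by ring
    have t1 := t i j
    have t2 := t j i
    have hδδ : 0 ≤ δ ^ wt i * δ ^ wt j := by positivity
    calc δ ^ wt i * δ ^ wt j * (‖π‖ * ‖(κ *ᵥ x 0) i * (κ *ᵥ x 1) j -
          (κ *ᵥ x 0) j * (κ *ᵥ x 1) i‖)
        = ‖π‖ * (δ ^ wt i * δ ^ wt j * ‖(κ *ᵥ x 0) i * (κ *ᵥ x 1) j -
          (κ *ᵥ x 0) j * (κ *ᵥ x 1) i‖) := by ring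
      _ ≤ k0 ω C ^ 2 * (w0 ω C a ^ 2 * δ ^ 4 + w0 ω C a ^ 2 * δ ^ 4) := by
          refine mul_le_mul hπ1 ?_ (by positivity) (by positivity)
          refine (mul_le_mul_of_nonneg_left (norm_sub_le _ _) hδδ).trans ?_
          rw [mul_add]
          refine add_le_add t1 ?_
          calc _ = δ ^ wt j * δ ^ wt i * ‖(κ *ᵥ x 0) j * (κ *ᵥ x 1) i‖ := by ring
            _ ≤ _ := t2
      _ = (k0 ω C ^ 2 * (2 * w0 ω C a ^ 2)) * δ ^ 4 := by ring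
      _ ≤ _ := by
          rw [w1]
          gcongr
          have : 0 ≤ (k2 ω C * a) ^ 4 := by positivity
          linarith
  · push Not at hsm
    have hd : 1 ≤ (k2 ω C * a) ^ 4 * δ ^ 4 := by
      have : 1 ≤ (k2 ω C * (a * δ)) ^ 4 := one_le_pow₀ hsm.le
      calc (1 : ℝ) ≤ (k2 ω C * (a * δ)) ^ 4 := this
        _ = _ := by ring
    calc δ ^ wt i * δ ^ wt j * ‖ph κ p i j‖ ≤ 1 * 1 * k0 ω C ^ 2 := by
          gcongr
          · exact hδi i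
          · exact hδi j
          · exact ph_le F hC0 L i j
      _ = k0 ω C ^ 2 * 1 := by ring
      _ ≤ k0 ω C ^ 2 * ((k2 ω C * a) ^ 4 * δ ^ 4) := by gcongr
      _ = (k0 ω C ^ 2 * (k2 ω C * a) ^ 4) * δ ^ 4 := by ring
      _ ≤ _ := by
          rw [w1]
          gcongr
          have : 0 ≤ 2 * w0 ω C a ^ 2 := by positivity
          linarith

/-- the zoomed vector -/
def gz (ρ : 𝕜) (κ₀ : Matrix (Ix ω) (Ix ω) 𝕜) (x : Ix ω → 𝕜) : Ix ω → 𝕜 :=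
  (ρ ^ 2)⁻¹ • Dt ρ (κ₀ *ᵥ x)

/-- **exact insulation** -/
theorem ins (H : Sf h C) (F₀ : Fr h C κ₀ κ₀') (L : Ln h p) {a : ℝ} (ha : 1 ≤ a) {ρ : 𝕜}
    (hρ : ρ ≠ 0) (hρ1 : ‖ρ‖ ≤ 1) (hn : Nr κ₀ p (a * ‖ρ‖))
    (hf : ∃ b j, ‖ρ‖ ^ 2 ≤ a * ‖(κ *ᵥ row p j) (.inl (.inr b))‖) {z x : Ix ω → 𝕜}
    (hz : w3 z p = 0) (hx : w3 x p = 0) (hz1 : ‖z‖ ≤ 1) (hx1 : ‖x‖ ≤ 1) {cz cx : 𝕜} {r Δ : ℝ}
    (hcz : ‖cz‖ ≤ a) (hcx : ‖cx‖ ≤ a) (hzm : ∀ b, ‖(κ *ᵥ z) (.inl (.inr b))‖ ≤ a * r ^ 2)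
    (hxm : ∀ b, ‖cx‖ * ‖(κ *ᵥ x) (.inl (.inr b))‖ ≤ a * Δ * ‖ρ‖ ^ 2) (hΔ : 0 ≤ Δ)
    (hr : r ^ 2 ≤ a * Δ * ‖ρ‖ ^ 2) (Q : Ix ω × Ix ω) :
    ‖wd (cz • gz ρ κ₀ z) (cx • gz ρ κ₀ x) Q‖ ≤ a * (a ^ 4 + a ^ 2) * w1 ω C a * Δ := by
  have hC := H.one
  have hC0 : 0 ≤ C := by linarith
  have hρ0 : 0 < ‖ρ‖ := norm_pos_iff.2 hρ
  obtain ⟨θ, hθ⟩ := wd_line L hz hx
  obtain ⟨b, j, hbj⟩ := hf
  have e1 : θ * (κ *ᵥ row p j) (.inl (.inr b)) =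
      x j * (κ *ᵥ z) (.inl (.inr b)) - z j * (κ *ᵥ x) (.inl (.inr b)) := by
    have e2 : θ • row p j = x j • z - z j • x := by
      funext i
      have := congrFun hθ (i, j)
      simp only [wd, Pi.smul_apply, smul_eq_mul] at this
      simp only [row, Pi.smul_apply, smul_eq_mul, Pi.sub_apply]
      linear_combination -this
    have e3 := congrArg (fun v => (κ *ᵥ v) (.inl (.inr b))) e2
    simp only [Matrix.mulVec_sub, Matrix.mulVec_smul, Pi.sub_apply, Pi.smul_apply,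
      smul_eq_mul] at e3
    exact e3
  have hcθ : ‖cx * θ‖ ≤ (a ^ 4 + a ^ 2) * Δ := by
    have g1 : ‖cx * θ‖ * ‖ρ‖ ^ 2 ≤ ((a ^ 4 + a ^ 2) * Δ) * ‖ρ‖ ^ 2 := by
      have g2 : ‖cx * θ‖ * ‖(κ *ᵥ row p j) (.inl (.inr b))‖ ≤
          a * (a * r ^ 2) + a * Δ * ‖ρ‖ ^ 2 := by
        rw [← norm_mul, mul_assoc, e1, norm_mul]
        have q1 : ‖x j * (κ *ᵥ z) (.inl (.inr b))‖ ≤ a * r ^ 2 := by
          rw [norm_mul]
          calc _ ≤ 1 * (a * r ^ 2) := mul_le_mul ((norm_le_pi_norm x j).trans hx1) (hzm b)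
                (norm_nonneg _) zero_le_one
            _ = _ := one_mul _
        have q2 : ‖z j * (κ *ᵥ x) (.inl (.inr b))‖ ≤ ‖(κ *ᵥ x) (.inl (.inr b))‖ := by
          rw [norm_mul]
          exact mul_le_of_le_one_left (norm_nonneg _) ((norm_le_pi_norm z j).trans hz1)
        calc ‖cx‖ * ‖x j * (κ *ᵥ z) (.inl (.inr b)) - z j * (κ *ᵥ x) (.inl (.inr b))‖
            ≤ ‖cx‖ * (a * r ^ 2 + ‖(κ *ᵥ x) (.inl (.inr b))‖) := by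
              gcongr
              exact (norm_sub_le _ _).trans (add_le_add q1 q2)
          _ = ‖cx‖ * (a * r ^ 2) + ‖cx‖ * ‖(κ *ᵥ x) (.inl (.inr b))‖ := by ring
          _ ≤ _ := by
              refine add_le_add ?_ (hxm b)
              gcongr
      calc ‖cx * θ‖ * ‖ρ‖ ^ 2 ≤ ‖cx * θ‖ * (a * ‖(κ *ᵥ row p j) (.inl (.inr b))‖) := by gcongr
        _ = a * (‖cx * θ‖ * ‖(κ *ᵥ row p j) (.inl (.inr b))‖) := by ring
        _ ≤ a * (a * (a * r ^ 2) + a * Δ * ‖ρ‖ ^ 2) := by gcongr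
        _ ≤ a * (a * (a * (a * Δ * ‖ρ‖ ^ 2)) + a * Δ * ‖ρ‖ ^ 2) := by gcongr
        _ = _ := by ring
    exact le_of_mul_le_mul_right g1 (by positivity)
  obtain ⟨i, l⟩ := Q
  have e4 : wd (cz • gz ρ κ₀ z) (cx • gz ρ κ₀ x) (i, l) =
      cz * (cx * θ) * ((ρ ^ 2)⁻¹ * (ρ ^ 2)⁻¹) * (ρ ^ wt i * ρ ^ wt l * ph κ₀ p i l) := by
    have e5 : θ * ph κ₀ p i l = (κ₀ *ᵥ z) i * (κ₀ *ᵥ x) l - (κ₀ *ᵥ z) l * (κ₀ *ᵥ x) i := by
      rw [← ph_smul, ← hθ, ph_wd]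
    have e6 : cz * (cx * θ) * ((ρ ^ 2)⁻¹ * (ρ ^ 2)⁻¹) * (ρ ^ wt i * ρ ^ wt l * ph κ₀ p i l) =
        cz * cx * ((ρ ^ 2)⁻¹ * (ρ ^ 2)⁻¹) * (ρ ^ wt i * ρ ^ wt l) * (θ * ph κ₀ p i l) := by ring
    rw [e6, e5]
    simp only [wd, gz, Pi.smul_apply, smul_eq_mul, Dt_apply]
    ring
  have e8 : ‖cz * (cx * θ) * ((ρ ^ 2)⁻¹ * (ρ ^ 2)⁻¹) * (ρ ^ wt i * ρ ^ wt l * ph κ₀ p i l)‖ =
      ‖cz‖ * ‖cx * θ‖ * ((‖ρ‖ ^ 2)⁻¹ * (‖ρ‖ ^ 2)⁻¹) *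
        (‖ρ‖ ^ wt i * ‖ρ‖ ^ wt l * ‖ph κ₀ p i l‖) := by
    simp only [norm_mul, norm_inv, norm_pow]
  rw [e4, e8]
  have h4 := pw H F₀ L ha hρ0.le hρ1 hn i l
  have hw1 : 0 ≤ w1 ω C a := by
    have h0 := k0_one (ω := ω) hC
    rw [w1]; positivity
  calc ‖cz‖ * ‖cx * θ‖ * ((‖ρ‖ ^ 2)⁻¹ * (‖ρ‖ ^ 2)⁻¹) * (‖ρ‖ ^ wt i * ‖ρ‖ ^ wt l * ‖ph κ₀ p i l‖)
      ≤ a * ((a ^ 4 + a ^ 2) * Δ) * ((‖ρ‖ ^ 2)⁻¹ * (‖ρ‖ ^ 2)⁻¹) * (w1 ω C a * ‖ρ‖ ^ 4) := by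
        gcongr
    _ = _ := by field_simp

end

end Vale.Agent.P092.H464.QF
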