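import Vale.Agent.P092.H464.Q.KB3
import Vale.Agent.P092.H604.Kp

/-!
P092, Track 3 (helper464): COUNT_2 for forms of Witt index 2, the operator form of `kb3` (compact
spaces of points and lines; the support of `E k` in the points near the contracted plane).
-/

set_option linter.all false

namespace Vale.Agent.P092.H464.QF

open Finset Matrix
open Vale.Agent.P092.H464 (Pv CI)
open Vale.Agent.P092.H589.K2 (Cells Nrm Tame Opf)
open Vale.Agent.P092.H589.Mu (Cap)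
open Vale.Agent.P092.H835.PlF (w3 Alt alt_wd)

section chain

variable {X Y : Type} [TopologicalSpace X] [CompactSpace X] [TopologicalSpace.MetrizableSpace X]
  [MeasurableSpace X] [BorelSpace X] [TopologicalSpace Y] [CompactSpace Y]
  [TopologicalSpace.MetrizableSpace Y] [MeasurableSpace Y] [BorelSpace Y]
  {K : Type} [NormedAddCommGroup K] [InnerProductSpace ℂ K] [CompleteSpace K]

omit [TopologicalSpace.MetrizableSpace X] [MeasurableSpace X] [BorelSpace X]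
  [MeasurableSpace Y] [BorelSpace Y] in
lemma satc {Inc : X → Y → Prop} (hI : IsClosed {z : X × Y | Inc z.1 z.2}) {B : Set X}
    (hB : IsClosed B) : IsClosed {y | ∃ x ∈ B, Inc x y} := by
  have e : {y | ∃ x ∈ B, Inc x y} =
      Prod.snd '' ({z : X × Y | Inc z.1 z.2} ∩ (Prod.fst ⁻¹' B)) := by
    ext y
    constructor
    · rintro ⟨x, hx, hxy⟩
      exact ⟨(x, y), ⟨hxy, hx⟩, rfl⟩
    · rintro ⟨⟨x, y'⟩, ⟨h1, h2⟩, rfl⟩
      exact ⟨x, h2, h1⟩
  rw [e]
  exact (((hI.inter (hB.preimage continuous_fst)).isCompact).image continuous_snd).isClosed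

/-- exact chains `z - y - x` with `z` in the support of `E` -/
theorem chainP {Inc : X → Y → Prop} (hI : IsClosed {z : X × Y | Inc z.1 z.2})
    (c p : C(X, ℂ) →⋆ₐ[ℂ] (K →L[ℂ] K)) (m : C(Y, ℂ) →⋆ₐ[ℂ] (K →L[ℂ] K))
    (hcm : CI Inc (H466.pv c) (H466.pv m)) (hpm : CI Inc (H466.pv p) (H466.pv m))
    {BB D D' : Set X} {T : Set Y} (hBB : MeasurableSet BB) (hD : MeasurableSet D)
    (hD' : MeasurableSet D') (hT : MeasurableSet T) {E W : K →L[ℂ] K}
    (hEc : ∀ D, MeasurableSet D → E * H466.pv c D = H466.pv c D * E)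
    (hE0 : ∀ D, MeasurableSet D → (∀ z ∈ D, z ∉ BB) → E * H466.pv c D = 0)
    (hWm : ∀ D, MeasurableSet D → W * H466.pv m D = H466.pv m D * W)
    (hno : ∀ z ∈ D, z ∈ BB → ∀ x ∈ D', ∀ y ∈ T, Inc z y → Inc x y → False) :
    H466.pv c D * (E * (W * (H466.pv p D' * H466.pv m T))) = 0 := by
  have pc := H604.pv_Pv c
  have pm := H604.pv_Pv m
  have hcl : ∀ G : Set X, G ⊆ D ∩ BB → IsClosed G →
      H466.pv c G * (E * (W * (H466.pv p D' * H466.pv m T))) = 0 := by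
    intro G hGD hG
    have hGm := hG.measurableSet
    set U : Set Y := {y | ∃ z ∈ G, Inc z y} with hU
    have hUc : IsClosed U := satc hI hG
    have hUm := hUc.measurableSet
    have h1 : H466.pv c G * H466.pv m T = H466.pv c G * H466.pv m (T ∩ U) := by
      have h3 : H466.pv m T = H466.pv m (T ∩ U) + H466.pv m (T \ U) := pm.split hUm hT
      have h4 : H466.pv c G * H466.pv m (T \ U) = 0 := by
        refine hcm.inc _ _ hGm (hT.diff hUm) fun z hz y hy hzy => hy.2 ⟨z, hz, hzy⟩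
      rw [h3, mul_add, h4, add_zero]
    have h2 : H466.pv p D' * H466.pv m (T ∩ U) = 0 := by
      refine hpm.inc _ _ hD' (hT.inter hUm) ?_
      rintro x hx y ⟨hyT, z, hz, hzy⟩ hxy
      exact hno z (hGD hz).1 (hGD hz).2 x hx y hyT hzy hxy
    calc H466.pv c G * (E * (W * (H466.pv p D' * H466.pv m T)))
        = (E * H466.pv c G) * (W * (H466.pv m T * H466.pv p D')) := by
          rw [hEc _ hGm, hpm.comm D' T hD' hT]; simp only [mul_assoc]
      _ = E * ((H466.pv c G * H466.pv m T) * (W * H466.pv p D')) := by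
          rw [← mul_assoc W, hWm _ hT]; simp only [mul_assoc]
      _ = E * (H466.pv c G * ((W * H466.pv m (T ∩ U)) * H466.pv p D')) := by
          rw [h1, hWm _ (hT.inter hUm)]; simp only [mul_assoc]
      _ = 0 := by
          rw [mul_assoc W, ← hpm.comm D' _ hD' (hT.inter hUm), h2, mul_zero, mul_zero, mul_zero]
  have hD1 : H466.pv c D * E = H466.pv c (D ∩ BB) * E := by
    have h3 : H466.pv c D = H466.pv c (D ∩ BB) + H466.pv c (D \ BB) := pc.split hBB hD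
    have h4 : H466.pv c (D \ BB) * E = 0 := by
      rw [← hEc _ (hD.diff hBB)]
      exact hE0 _ (hD.diff hBB) fun z hz => hz.2
    rw [h3, add_mul, h4, add_zero]
  rw [← mul_assoc, hD1, mul_assoc]
  refine ContinuousLinearMap.ext fun v => ?_
  rw [ContinuousLinearMap.mul_apply, ContinuousLinearMap.zero_apply]
  set u := (E * (W * (H466.pv p D' * H466.pv m T))) v with hu
  have h0 : ∀ ε : ℝ, 0 < ε → ‖H466.pv c (D ∩ BB) u‖ ≤ ε := by
    intro ε hε
    obtain ⟨G, hGD, hG, h1⟩ := H466.exists_closed_approx c (hD.inter hBB) u hε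
    have h2 : H466.pv c G u = 0 := by
      have := congrArg (fun T : K →L[ℂ] K => T v) (hcl G hGD hG)
      simpa [hu] using this
    rwa [h2, sub_zero] at h1
  exact norm_le_zero_iff.1 (le_of_forall_pos_le_add fun ε hε => by rw [zero_add]; exact h0 ε hε)

end chain

variable {K : Type} [NormedAddCommGroup K] [InnerProductSpace ℂ K] [CompleteSpace K]
variable {𝕜 : Type} [NontriviallyNormedField 𝕜] [ProperSpace 𝕜] [MeasurableSpace 𝕜] [BorelSpace 𝕜]
variable {ω γ : Type} [Fintype ω] [DecidableEq ω] [Fintype γ]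

/-- **COUNT_2 for forms of Witt index 2, operator form** -/
theorem kb4 (cl : Cells 𝕜) {φ : (γ → 𝕜) → ℂ} (hφ : Tame K φ)
    {h : (Ix ω → 𝕜) → (Ix ω → 𝕜) → 𝕜} {C : ℝ} (H : Sf h C) (a : ℝ) (ha : 1 ≤ a) :
    ∃ B : ℝ, 0 ≤ B ∧ ∀ (X Y : Type) [TopologicalSpace X] [CompactSpace X]
      [TopologicalSpace.MetrizableSpace X] [MeasurableSpace X] [BorelSpace X]
      [TopologicalSpace Y] [CompactSpace Y] [TopologicalSpace.MetrizableSpace Y]
      [MeasurableSpace Y] [BorelSpace Y] (s : X → Ix ω → 𝕜)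
      (p : Y → Ix ω × Ix ω → 𝕜), Measurable s → Measurable p → (∀ x, Nrm (s x)) →
      (∀ y, Ln h (p y)) → ∀ (Inc : X → Y → Prop), IsClosed {z : X × Y | Inc z.1 z.2} →
      (∀ x y, Inc x y → w3 (s x) (p y) = 0) →
      ∀ (c q : C(X, ℂ) →⋆ₐ[ℂ] (K →L[ℂ] K)) (m : C(Y, ℂ) →⋆ₐ[ℂ] (K →L[ℂ] K)),
      CI Inc (H466.pv c) (H466.pv m) → CI Inc (H466.pv q) (H466.pv m) →
      ∀ (κ : Type) (S : Finset κ) (n n' : κ → Matrix (Ix ω) (Ix ω) 𝕜) (t : κ → 𝕜)
      (A : κ → Matrix γ (Ix ω) 𝕜) (A' : κ → Matrix (Ix ω) γ 𝕜) (r : ℝ), 0 < r → r ≤ 1 →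
      (∀ k ∈ S, Fr h C (n k) (n' k)) → (∀ k ∈ S, r ≤ a * ‖t k‖ ∧ ‖t k‖ ≤ a * r) →
      (∀ k ∈ S, A' k * A k = 1) → (∀ k ∈ S, ∀ i j, ‖A k i j‖ ≤ a) →
      (∀ k ∈ S, ∀ i j, ‖A' k i j‖ ≤ a) →
      ∀ (E W : κ → (K →L[ℂ] K)) (F : κ → X → ℂ) (N : ℝ), 0 ≤ N →
      (∀ k ∈ S, ∀ D, MeasurableSet D → E k * H466.pv c D = H466.pv c D * E k) →
      (∀ k ∈ S, ∀ D, MeasurableSet D →
        (∀ z ∈ D, ∃ b, a * r ^ 2 < ‖(n k *ᵥ s z) (.inl (.inr b))‖) → E k * H466.pv c D = 0) →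
      Cap S E N →
      (∀ k ∈ S, ∀ x, F k x = φ (A k *ᵥ Dt (t k) (n k *ᵥ s x))) →
      (∀ k ∈ S, Measurable (F k)) → (∀ k ∈ S, Opf (H466.pv q) (F k) (W k)) →
      (∀ k ∈ S, ∀ D, MeasurableSet D → W k * H466.pv m D = H466.pv m D * W k) →
      Cap S (fun k => E k * W k) (B * (1 + Real.log (1 / r)) ^ 2 * N) := by
  obtain ⟨B, hB0, hB⟩ := kb3 (ω := ω) cl hφ H a ha
  refine ⟨B, hB0, ?_⟩
  intro X Y _ _ _ _ _ _ _ _ _ _ s p hs hp hns hL Inc hIc hI c q m hcm hqm κ S n n' t A A' r hr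
    hr1 hF ht hAA hA hA' E W F N hN hEc hE0 hcap hff hfm hop hWm
  refine hB X Y s p hs hp hns hL Inc hI (H466.pv c) (H466.pv q) (H466.pv m) (H604.pv_Pv c)
    (H604.pv_Pv q) (H604.pv_Pv m) κ S n n' t A A' r hr hr1 hF ht hAA hA hA' E W F N hN hcap hff
    hfm hop ?_
  intro k hk D D' T hD hD' hT hno
  set BB : Set X := {z | ∀ b : Fin 2, ‖(n k *ᵥ s z) (.inl (.inr b))‖ ≤ a * r ^ 2} with hBB
  have hBBm : MeasurableSet BB := by
    have e : BB = ⋂ b : Fin 2, {z | ‖(n k *ᵥ s z) (.inl (.inr b))‖ ≤ a * r ^ 2} := by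
      ext z; simp [hBB]
    rw [e]
    refine MeasurableSet.iInter fun b => ?_
    have hc : Continuous fun v : Ix ω → 𝕜 => ‖(n k *ᵥ v) (.inl (.inr b))‖ := by
      simp only [Matrix.mulVec, dotProduct]
      fun_prop
    exact hs (isClosed_le hc continuous_const).measurableSet
  refine chainP hIc c q m hcm hqm hBBm hD hD' hT (hEc k hk) (fun D₁ hD₁ hz => ?_) (hWm k hk)
    fun z hz hzB x hx y hy h1 h2 => hno z hz x hx y hy h1 h2 hzB
  refine hE0 k hk D₁ hD₁ fun z hzD => ?_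
  have := hz z hzD
  simp only [hBB, Set.mem_ofPred_eq, not_forall, not_le] at this
  exact this

end Vale.Agent.P092.H464.QF
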